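import Vale.Agent.P324.Link

/-! Reduction to perfect schedules, and the machines. -/

namespace Vale.Agent.P324

open Finset Function Vale.Agent.Common.TreeTM Turing

def mat (G : Graph) : List (List Bool) := List.ofFn fun u => List.ofFn (G.adj u)

theorem mat_len (G : Graph) : (mat G).length = G.n := by simp [mat]

theorem gm_mat (G : Graph) (u v : ℕ) :
    gm (mat G) u v = true ↔ ∃ hu hv, G.adj ⟨u, hu⟩ ⟨v, hv⟩ = true := by
  by_cases hu : u < G.n <;> by_cases hv : v < G.n <;> simp [gm, gb, mat, hu, hv]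

theorem slots_eq (m : ℕ) (A : List (List Bool)) (T : ℕ) :
    slots m A T = List.range (min T A.length * m) := by
  unfold slots idx
  congr 1
  induction A.length with
  | zero => simp
  | succ n ih =>
    rw [List.range_succ, List.flatMap_append, List.length_append, ih]
    by_cases h : n < T
    · simp [nlt, h, min_eq_right h.le, Nat.succ_mul]
    · simp [nlt, h, min_eq_left (not_lt.1 h), min_eq_left ((not_lt.1 h).trans (Nat.le_succ n))]

theorem compress {G : Graph} {m T : ℕ} {τ : Fin G.n → ℕ} (h : G.IsSchedule m T τ) :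
    ∃ f : Fin G.n → ℕ × ℕ, Injective f ∧ (∀ v, f v ∈ range (min T G.n) ×ˢ range m) ∧
      ∀ u v, τ u < τ v → (f u).1 < (f v).1 := by
  have hm : ∀ u v, τ u < τ v → ((univ.image τ).filter (· < τ u)).card <
      ((univ.image τ).filter (· < τ v)).card := fun u v huv =>
    card_lt_card ⟨fun x hx => mem_filter.2 ⟨(mem_filter.1 hx).1, (mem_filter.1 hx).2.trans huv⟩,
      fun hh => lt_irrefl _ (mem_filter.1 (hh (mem_filter.2
        ⟨mem_image_of_mem τ (mem_univ u), huv⟩))).2⟩
  have hr : ∀ u v, τ u = τ v → u < v → (univ.filter fun w => τ w = τ u ∧ w < u).card <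
      (univ.filter fun w => τ w = τ v ∧ w < v).card := fun u v h1 h2 =>
    card_lt_card ⟨fun x hx => mem_filter.2 ⟨mem_univ _, (mem_filter.1 hx).2.1.trans h1,
      (mem_filter.1 hx).2.2.trans h2⟩, fun hh => lt_irrefl _ (mem_filter.1 (hh (mem_filter.2
        ⟨mem_univ u, h1, h2⟩))).2.2⟩
  refine ⟨fun v => (((univ.image τ).filter (· < τ v)).card,
    (univ.filter fun w => τ w = τ v ∧ w < v).card), fun u v e => ?_, fun v => ?_, hm⟩
  · obtain ⟨e1, e2⟩ := Prod.mk.inj e
    have h1 : τ u = τ v := le_antisymm (not_lt.1 fun h => (hm _ _ h).ne' e1)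
      (not_lt.1 fun h => (hm _ _ h).ne e1)
    exact le_antisymm (not_lt.1 fun h => (hr _ _ h1.symm h).ne' e2)
      (not_lt.1 fun h => (hr _ _ h1 h).ne e2)
  · simp only [mem_product, mem_range, lt_min_iff]
    refine ⟨⟨?_, ?_⟩, lt_of_lt_of_le (card_lt_card ⟨fun x hx => mem_filter.2
      ⟨mem_univ _, (mem_filter.1 hx).2.1⟩, fun hh => lt_irrefl _ (mem_filter.1 (hh (mem_filter.2
        ⟨mem_univ v, rfl⟩))).2.2⟩) (h.2.1 (τ v))⟩
    · have h1 : (univ.image τ).filter (· < τ v) ⊆ Ico 1 (τ v) := fun x hx => by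
        obtain ⟨h2, h3⟩ := mem_filter.1 hx
        obtain ⟨w, -, rfl⟩ := mem_image.1 h2
        exact mem_Ico.2 ⟨(h.1 w).1, h3⟩
      have h2 := card_le_card h1
      have := h.1 v
      rw [Nat.card_Ico] at h2
      omega
    · refine lt_of_lt_of_le (card_lt_card ⟨filter_subset _ _, fun hh => lt_irrefl _
        (mem_filter.1 (hh (mem_image_of_mem τ (mem_univ v)))).2⟩) ?_
      simpa using card_image_le (s := univ) (f := τ)

theorem fill {G : Graph} {m T : ℕ} {τ : Fin G.n → ℕ} (h : G.IsSchedule m T τ) :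
    G.n ≤ min T G.n * m ∧ ∃ σ : Fin (min T G.n * m) → ℕ, Sched m
      (rel _ (clos (List.range (min T G.n * m)) (mat G))) univ (min T G.n) σ := by
  obtain ⟨f, f1, f2, f3⟩ := compress h
  have hc : (range (min T G.n) ×ˢ range m).card = min T G.n * m := by simp
  refine ⟨by simpa [hc] using card_le_card_of_injOn (s := univ) f (fun v _ => f2 v) f1.injOn, ?_⟩
  generalize min T G.n = T' at *
  obtain ⟨g, hg⟩ := Set.MapsTo.exists_equiv_extend_of_card_eq (α := Fin (T' * m))
    (t := range T' ×ˢ range m) (by simp) (s := {i | i.1 < G.n})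
    (f := fun i => if hi : i.1 < G.n then f ⟨i, hi⟩ else (0, 0))
    (fun i hi => by simp only [dif_pos (show i.1 < G.n from hi)]; exact f2 _)
    fun i hi j hj e => by
      simp only [dif_pos (show i.1 < G.n from hi), dif_pos (show j.1 < G.n from hj)] at e
      exact Fin.ext (congrArg Fin.val (f1 e) :)
  refine ⟨fun z => (g z).1.1, fun z _ => mem_range.1 (mem_product.1 (g z).2).1, fun t ht => ?_,
    fun u _ v _ huv => ?_⟩
  · conv_rhs => rw [← card_range m]
    refine card_bij (fun z _ => (g z).1.2) (fun z _ => (mem_product.1 (g z).2).2)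
      (fun z hz w hw e => g.injective (Subtype.ext (Prod.ext
        ((mem_filter.1 hz).2.trans (mem_filter.1 hw).2.symm) e))) fun b hb => ?_
    exact ⟨g.symm ⟨(t, b), mem_product.2 ⟨mem_range.2 ht, hb⟩⟩, by simp, by simp⟩
  · obtain ⟨hu, hv, h1⟩ := (clos_spec (N := T' * m) (mat G)
      (fun a b => ∃ ha hb, τ ⟨a, ha⟩ < τ ⟨b, hb⟩)
      (fun _ _ _ ⟨ha, _, h1⟩ ⟨_, hc, h2⟩ => ⟨ha, hc, h1.trans h2⟩)
      fun a b _ _ hab => by
        obtain ⟨ha, hb, h1⟩ := (gm_mat G a b).1 hab
        exact ⟨ha, hb, h.2.2 _ _ h1⟩).1 u v huv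
    simp only [hg u hu, hg v hv, dif_pos hu, dif_pos hv]
    exact f3 _ _ h1

theorem run_complete {m : ℕ} (hm : 1 ≤ m) {G : Graph} {T : ℕ} {τ : Fin G.n → ℕ}
    (h : G.IsSchedule m T τ) : (run m (mat G) T).1 = true := by
  obtain ⟨h1, σ, h2⟩ := fill h
  have h3 : 1 ≤ min T G.n := by
    have := G.hn
    have := h.1 ⟨0, G.hn⟩
    omega
  obtain ⟨e, he⟩ := fin_complete hm (fun a b c => (clos_spec (mat G) (fun _ _ => True)
    (fun _ _ _ _ _ => trivial) fun _ _ _ _ _ => trivial).2.2 a b c) h3 h2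
  simp only [run, outp, slots_eq, mat_len, List.length_range, nlt, isCons, Bool.and_eq_true,
    Bool.not_eq_true', decide_eq_false_iff_not, not_lt, List.isEmpty_eq_false_iff]
  exact ⟨h1, List.ne_nil_of_mem he⟩

theorem run_sound {m : ℕ} (hm : 1 ≤ m) {G : Graph} {T : ℕ} (h : (run m (mat G) T).1 = true) :
    ∃ τ, G.IsSchedule m T τ ∧ (run m (mat G) T).2 = List.ofFn τ := by
  simp only [run, outp, slots_eq, mat_len, List.length_range, nlt, isCons, Bool.and_eq_true,
    Bool.not_eq_true', decide_eq_false_iff_not, not_lt, List.isEmpty_eq_false_iff] at h ⊢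
  obtain ⟨h1, h2⟩ := h
  obtain ⟨e, L, he⟩ := List.exists_cons_of_ne_nil h2
  have s := fin_sound (he ▸ List.mem_cons_self : e ∈ _)
  have h3 := s.card
  rw [card_univ, Fintype.card_fin] at h3
  have h4 : min T G.n = e.2.1 := Nat.eq_of_mul_eq_mul_right hm h3
  refine ⟨fun v => e.2.2.getD v 0 + 1, ⟨fun v => ⟨Nat.succ_pos _, ?_⟩, fun t => ?_,
    fun u v huv => ?_⟩, ?_⟩
  · have := s.lt (Fin.castLE h1 v) (mem_univ _)
    simp only [Fin.val_castLE] at this ⊢
    omega
  · by_cases ht : t - 1 < e.2.1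
    · rw [← s.cnt _ ht]
      refine card_le_card_of_injOn (Fin.castLE h1) (fun v hv => ?_) (Fin.castLE_injective h1).injOn
      simp only [coe_filter, mem_univ, true_and, Set.mem_ofPred_eq, Fin.val_castLE] at hv ⊢
      omega
    · rw [filter_false_of_mem fun v _ => by
        have := s.lt (Fin.castLE h1 v) (mem_univ _)
        simp only [Fin.val_castLE] at this ⊢
        omega]
      exact Nat.zero_le _
  · exact Nat.succ_lt_succ (s.ord (Fin.castLE h1 u) (mem_univ _) (Fin.castLE h1 v) (mem_univ _)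
      ((clos_spec (mat G) (fun _ _ => True) (fun _ _ _ _ _ => trivial)
        fun _ _ _ _ _ => trivial).2.1 u v (u.2.trans_le h1) (v.2.trans_le h1)
        ((gm_mat G u v).2 ⟨u.2, v.2, huv⟩)))
  · rw [he]
    exact List.ext_getElem (by simp [idx, mat_len]) fun _ _ _ => by simp [idx]

theorem exists_sched {m : ℕ} (hm : 1 ≤ m) {G : Graph} (h : G.Acyclic) :
    ∃ τ, G.IsSchedule m G.n τ := by
  classical
  let r : Fin G.n → Fin G.n → Prop := Relation.TransGen fun a b => G.adj a b = true
  let τ : Fin G.n → ℕ := fun v => G.n * (univ.filter fun w => r w v).card + v + 1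
  have h1 : G.IsSchedule m (G.n * G.n + G.n) τ := by
    refine ⟨fun v => ⟨Nat.succ_pos _, ?_⟩, fun t => le_trans (card_le_one.2 fun a ha b hb => ?_) hm,
      fun u v huv => ?_⟩
    · have h1 := Nat.mul_le_mul_left G.n (card_le_univ (univ.filter fun w => r w v))
      have := v.2
      rw [Fintype.card_fin] at h1
      simp only [τ]
      omega
    · have h1 := congrArg (· % G.n)
        (Nat.succ_injective ((mem_filter.1 ha).2.trans (mem_filter.1 hb).2.symm))
      simp only [Nat.mul_add_mod, Nat.mod_eq_of_lt a.2, Nat.mod_eq_of_lt b.2] at h1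
      exact Fin.ext h1
    · have h1 : (univ.filter fun w => r w u).card + 1 ≤ (univ.filter fun w => r w v).card :=
        card_lt_card ⟨fun w hw => mem_filter.2 ⟨mem_univ _, (mem_filter.1 hw).2.tail huv⟩,
          fun hh => h u (mem_filter.1 (hh (mem_filter.2 ⟨mem_univ _, .single huv⟩))).2⟩
      have h2 := Nat.mul_le_mul_left G.n h1
      have := u.2
      rw [mul_add] at h2
      simp only [τ]
      omega
  have h2 := run_complete hm h1
  have h3 : run m (mat G) (G.n * G.n + G.n) = run m (mat G) G.n := by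
    simp only [run, slots_eq, mat_len, min_self, min_eq_right (Nat.le_add_left G.n _)]
  exact (run_sound hm (h3 ▸ h2)).imp fun _ h => h.1

theorem head_first {β : Type} (p : ℕ → Bool) (f : ℕ → β) (d : β) {T : ℕ} (h1 : p T = true)
    (h2 : ∀ t < T, p t = false) {n : ℕ} (hn : T < n) :
    ((List.range n).flatMap fun t => bif p t then [f t] else []).headD d = f T := by
  obtain ⟨k, rfl⟩ := Nat.exists_eq_add_of_lt hn
  have h3 : (List.range T).flatMap (fun t => bif p t then [f t] else []) = [] :=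
    List.flatMap_eq_nil_iff.2 fun t ht => by rw [h2 t (List.mem_range.1 ht)]; rfl
  rw [add_assoc, List.range_add, List.flatMap_append, h3, List.range_succ_eq_map]
  simp [h1]

theorem opt_spec {m : ℕ} (hm : 1 ≤ m) {G : Graph} (h : G.Acyclic) :
    ∃ T τ, G.IsSchedule m T τ ∧ opt m (mat G) = List.ofFn τ ∧
      ∀ T' τ', G.IsSchedule m T' τ' → T ≤ T' := by
  obtain ⟨τ0, h0⟩ := exists_sched hm h
  have hex : ∃ T, (run m (mat G) T).1 = true := ⟨_, run_complete hm h0⟩
  obtain ⟨τ, h1, h2⟩ := run_sound hm (Nat.find_spec hex)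
  refine ⟨_, τ, h1, ?_, fun T' τ' h' => Nat.find_min' hex (run_complete hm h')⟩
  rw [← h2, opt, idx]
  exact head_first (fun T => (run m (mat G) T).1) _ _ (Nat.find_spec hex)
    (fun t ht => by simpa using Nat.find_min hex ht)
    (by simpa [mat_len, Nat.lt_succ_iff] using Nat.find_min' hex (run_complete hm h0))

theorem e_bool (b : Bool) : encBool b = (Enc.enc b).enc := by cases b <;> rfl

theorem e_nat (n : ℕ) : encNat n = (Enc.enc n).enc := enc_list _ e_bool n.bits

theorem e_graph (G : Graph) : encGraph G = (Enc.enc (mat G)).enc :=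
  enc_list _ (enc_list _ e_bool) _

theorem toPoly {α β ι κ : Type} [Enc α] [Enc β] {f : α → β} (h : TC 0 f) (ea : ι → List Bool)
    (eb : κ → List Bool) (F : ι → κ) (p : ι → α) (hin : ∀ i, ea i = (Enc.enc (p i)).enc)
    (hout : ∀ i, eb (F i) = (Enc.enc (f (p i))).enc) :
    ∃ tm : TM2ComputableInPolyTime ea eb F, ∀ k, Finite (tm.tm.Γ k) := by
  obtain ⟨C, tm, h1, h2⟩ := h.toTM ea eb F p hin hout
  refine ⟨⟨tm.toTM2ComputableAux, (2 * Polynomial.X + 2) ^ C, fun a =>
    ⟨(tm.outputsFun a).toEvalsTo, (tm.outputsFun a).steps_le_m.trans ((h2 _).trans ?_)⟩⟩, h1⟩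
  generalize (ea a).length = L
  simp only [Polynomial.eval_pow, Polynomial.eval_add, Polynomial.eval_mul, Polynomial.eval_ofNat,
    Polynomial.eval_X, zero_add, pow_one]
  rw [mul_comm, pow_mul]
  refine Nat.pow_le_pow_left ?_ _
  rcases Nat.eq_zero_or_pos L with rfl | h
  · simp
  · have := Nat.pow_log_le_self 2 h.ne'
    rw [pow_succ]
    omega

theorem run_poly (m : ℕ) : ∃ tm : TM2ComputableInPolyTime (encPair encGraph encNat)
    (encPair encBool (encList encNat)) fun x : Graph × ℕ => run m (mat x.1) x.2,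
    ∀ k, Finite (tm.tm.Γ k) :=
  toPoly (tc_run m TC.fst' TC.snd') _ _ _ (fun x => (mat x.1, x.2))
    (fun x => by simp only [encPair, e_graph, e_nat]; rfl)
    fun x => by simp only [encPair, encList, enc_list _ e_nat, e_bool]; rfl

theorem opt_poly (m : ℕ) : ∃ tm : TM2ComputableInPolyTime encGraph (encList encNat)
    fun G => opt m (mat G), ∀ k, Finite (tm.tm.Γ k) :=
  toPoly (tc_opt m TC.id) _ _ _ mat e_graph fun _ => enc_list _ e_nat _

end Vale.Agent.P324
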