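import Vale.Agent.P324.Defs
import Vale.Agent.Common.TreeDiv

/-! The dynamic programme on lists and its running time. -/

namespace Vale.Agent.P324

open Function Vale.Agent.Common.TreeTM

def gb (l : List Bool) (i : ℕ) : Bool := l.getD i false
def gm (M : List (List Bool)) (i j : ℕ) : Bool := gb (M.getD i []) j
def eqn (a b : ℕ) : Bool := !(nlt a b || nlt b a)
def wstep (ix : List ℕ) (M : List (List Bool)) (k : ℕ) : List (List Bool) :=
  ix.map fun u => ix.map fun v => gm M u v || (gm M u k && gm M k v)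
def clos (ix : List ℕ) (A : List (List Bool)) : List (List Bool) :=
  ix.foldl (wstep ix) (ix.map fun u => ix.map fun v => gm A u v)
def lamL (ix : List ℕ) (R : List (List Bool)) (z : ℕ) : ℕ :=
  ix.length * (ix.map fun w => bif gm R w z then 1 else 0).sum + z
def base (ix : List ℕ) (R : List (List Bool)) : List (List Bool) :=
  (ix.map fun _ => false) :: (ix.map fun _ => true) :: ix.flatMap fun z =>
    [ix.map fun w => eqn w z, ix.map fun w => gm R w z, ix.map fun w => gm R z w,
      ix.map fun w => nlt (lamL ix R w) (lamL ix R z)]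
def un (ix : List ℕ) (X Y : List Bool) : List Bool := ix.map fun i => gb X i || gb Y i
def df (ix : List ℕ) (X Y : List Bool) : List Bool := ix.map fun i => gb X i && !gb Y i
def grow (ix : List ℕ) (L : List (List Bool)) : List (List Bool) :=
  L.flatMap fun X => L.flatMap fun Y => [un ix X Y, df ix X Y]
def cnt (ix : List ℕ) (X : List Bool) : ℕ := (ix.map fun i => bif gb X i then 1 else 0).sum
def noArc (ix : List ℕ) (R : List (List Bool)) (X Y : List Bool) : Bool :=
  ix.all fun u => ix.all fun v => !(gb X u && gb Y v && gm R u v)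
def disj (ix : List ℕ) (X Y : List Bool) : Bool := ix.all fun i => !(gb X i && gb Y i)
def same (ix : List ℕ) (X Y : List Bool) : Bool :=
  ix.all fun i => (gb X i && gb Y i) || (!gb X i && !gb Y i)
abbrev Ent : Type := List Bool × ℕ × List ℕ
def leaves (m : ℕ) (ix : List ℕ) (R F : List (List Bool)) : List Ent :=
  F.flatMap fun X => bif eqn (cnt ix X) m && noArc ix R X X then
    [(un ix X X, 1, ix.map fun _ => 0)] else []
def glueE (ix : List ℕ) (x y : Ent) : Ent :=
  (un ix x.1 y.1, x.2.1 + y.2.1,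
    ix.map fun i => bif gb x.1 i then x.2.2.getD i 0 else x.2.1 + y.2.2.getD i 0)
def pairs (ix : List ℕ) (R : List (List Bool)) (L : List Ent) : List Ent :=
  L.flatMap fun x => L.flatMap fun y =>
    bif disj ix x.1 y.1 && noArc ix R y.1 x.1 then [glueE ix x y] else []
def first (L : List Ent) : List Ent := bif isCons L then [L.headD ([], 0, [])] else []
def pick (ix : List ℕ) (X : List Bool) (L : List Ent) : List Ent :=
  first (L.flatMap fun e => bif same ix e.1 X then [e] else [])
def dstep (m : ℕ) (ix : List ℕ) (R F : List (List Bool)) (L : List Ent) : List Ent :=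
  F.flatMap fun X => pick ix X (leaves m ix R F ++ pairs ix R L)
def dp (m : ℕ) (ix : List ℕ) (R F : List (List Bool)) : List Ent :=
  ix.foldl (fun L _ => dstep m ix R F L) []
def slots (m : ℕ) (A : List (List Bool)) (T : ℕ) : List ℕ :=
  idx ((idx A).flatMap fun i => bif nlt i T then List.replicate m false else [])
def fin (m : ℕ) (ix : List ℕ) (R : List (List Bool)) : List Ent :=
  pick ix (ix.map fun _ => true) (dp m ix R ((grow ix)^[2 * m + 6] (base ix R)))
def outp (A : List (List Bool)) (ix : List ℕ) (L : List Ent) : Bool × List ℕ :=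
  (!nlt ix.length A.length && isCons L, (idx A).map fun v => (L.headD ([], 0, [])).2.2.getD v 0 + 1)
def run (m : ℕ) (A : List (List Bool)) (T : ℕ) : Bool × List ℕ :=
  outp A (slots m A T) (fin m (slots m A T) (clos (slots m A T) A))
def opt (m : ℕ) (A : List (List Bool)) : List ℕ :=
  ((idx ([] :: A)).flatMap fun T => bif (run m A T).1 then [(run m A T).2] else []).headD []

section tc

variable {α β γ : Type} [Enc α] [Enc β] [Enc γ]

theorem sz_append (l l' : List β) : sz (l ++ l') + 1 = sz l + sz l' := by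
  induction l with
  | nil => rw [List.nil_append, sz_lnil, add_comm]
  | cons a l ih => rw [List.cons_append, sz_lcons, sz_lcons]; omega

@[fun_prop] theorem tc_flatMap {f : α → β → List γ} {l : α → List β}
    (hf : TC 0 fun p : α × β => f p.1 p.2) (hl : TC 0 l) : TC 0 fun a => (l a).flatMap (f a) := by
  have hf' : TC 0 fun p : α × List γ × β => f p.1 p.2.2 :=
    TC.comp (g := fun p : α × List γ × β => (p.1, p.2.2)) hf (by fun_prop)
  refine (TC.foldl_grow (f := fun a acc x => acc ++ f a x) (i := fun _ => [])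
    (by fun_prop) (by fun_prop) hl (m := fun p => sz (f p.1 p.2)) hf.bd
    (fun a acc x => by
      have := sz_append acc (f a x)
      dsimp only
      omega)).of_eq fun a => ?_
  have : ∀ (l : List β) (acc : List γ), l.foldl (fun acc x => acc ++ f a x) acc =
      acc ++ l.flatMap (f a) := by
    intro l
    induction l with
    | nil => simp
    | cons x l ih => intro acc; simp [ih]
  simp [this]

@[fun_prop] theorem tc_gb {l : α → List Bool} {i : α → ℕ} (hl : TC 0 l) (hi : TC 0 i) :
    TC 0 fun a => gb (l a) (i a) := by unfold gb; fun_prop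

@[fun_prop] theorem tc_gm {l : α → List (List Bool)} {i j : α → ℕ} (hl : TC 0 l) (hi : TC 0 i)
    (hj : TC 0 j) : TC 0 fun a => gm (l a) (i a) (j a) := by unfold gm; fun_prop

@[fun_prop] theorem tc_eqn {f g : α → ℕ} (hf : TC 0 f) (hg : TC 0 g) :
    TC 0 fun a => eqn (f a) (g a) := by unfold eqn; fun_prop

@[fun_prop] theorem tc_wstep {ix : α → List ℕ} {M : α → List (List Bool)} {k : α → ℕ}
    (hi : TC 0 ix) (hM : TC 0 M) (hk : TC 0 k) : TC 0 fun a => wstep (ix a) (M a) (k a) := by
  unfold wstep; fun_prop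

theorem sz_bits {l : List Bool} {n : ℕ} (h : l.length ≤ n) : sz l ≤ n * 4 + 1 :=
  (sz_list_le fun b _ => sz_bool b).trans (by omega)

@[fun_prop] theorem tc_clos {ix : α → List ℕ} {A : α → List (List Bool)} (hi : TC 0 ix)
    (hA : TC 0 A) : TC 0 fun a => clos (ix a) (A a) := by
  refine TC.foldl_inv (f := fun a => wstep (ix a)) (by fun_prop) (by fun_prop) hi
    (S := fun a => sz (ix a) * (sz (ix a) * 4 + 1 + 1) + 1)
    ((hi.bd.mul (((hi.bd.mul (Bd.const _ _)).add (Bd.const _ _)).add (Bd.const _ _))).add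
      (Bd.const _ _))
    (fun a _ M => M.length ≤ (ix a).length ∧ ∀ x ∈ M, x.length ≤ (ix a).length)
    (fun a => by simp) (fun a k M x _ _ => by simp [wstep]) fun a k M _ h => ?_
  have h1 := length_le_sz (ix a)
  exact (sz_list_le fun x hx => sz_bits ((h.2 x hx).trans h1)).trans
    (Nat.add_le_add_right (Nat.mul_le_mul_right _ (h.1.trans h1)) _)

@[fun_prop] theorem tc_lamL {ix : α → List ℕ} {R : α → List (List Bool)} {z : α → ℕ}
    (hi : TC 0 ix) (hR : TC 0 R) (hz : TC 0 z) : TC 0 fun a => lamL (ix a) (R a) (z a) := by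
  unfold lamL; fun_prop

@[fun_prop] theorem tc_base {ix : α → List ℕ} {R : α → List (List Bool)} (hi : TC 0 ix)
    (hR : TC 0 R) : TC 0 fun a => base (ix a) (R a) := by unfold base; fun_prop

@[fun_prop] theorem tc_un {ix : α → List ℕ} {X Y : α → List Bool} (hi : TC 0 ix) (hX : TC 0 X)
    (hY : TC 0 Y) : TC 0 fun a => un (ix a) (X a) (Y a) := by unfold un; fun_prop

@[fun_prop] theorem tc_df {ix : α → List ℕ} {X Y : α → List Bool} (hi : TC 0 ix) (hX : TC 0 X)
    (hY : TC 0 Y) : TC 0 fun a => df (ix a) (X a) (Y a) := by unfold df; fun_prop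

@[fun_prop] theorem tc_grow {ix : α → List ℕ} {L : α → List (List Bool)} (hi : TC 0 ix)
    (hL : TC 0 L) : TC 0 fun a => grow (ix a) (L a) := by unfold grow; fun_prop

@[fun_prop] theorem tc_fam (c : ℕ) {ix : α → List ℕ} {L : α → List (List Bool)} (hi : TC 0 ix)
    (hL : TC 0 L) : TC 0 fun a => (grow (ix a))^[c] (L a) := by
  induction c with
  | zero => exact hL
  | succ c ih =>
    simp only [iterate_succ_apply']
    exact tc_grow hi ih

@[fun_prop] theorem tc_cnt {ix : α → List ℕ} {X : α → List Bool} (hi : TC 0 ix) (hX : TC 0 X) :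
    TC 0 fun a => cnt (ix a) (X a) := by unfold cnt; fun_prop

@[fun_prop] theorem tc_noArc {ix : α → List ℕ} {R : α → List (List Bool)} {X Y : α → List Bool}
    (hi : TC 0 ix) (hR : TC 0 R) (hX : TC 0 X) (hY : TC 0 Y) :
    TC 0 fun a => noArc (ix a) (R a) (X a) (Y a) := by unfold noArc; fun_prop

@[fun_prop] theorem tc_disj {ix : α → List ℕ} {X Y : α → List Bool} (hi : TC 0 ix) (hX : TC 0 X)
    (hY : TC 0 Y) : TC 0 fun a => disj (ix a) (X a) (Y a) := by unfold disj; fun_prop

@[fun_prop] theorem tc_same {ix : α → List ℕ} {X Y : α → List Bool} (hi : TC 0 ix) (hX : TC 0 X)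
    (hY : TC 0 Y) : TC 0 fun a => same (ix a) (X a) (Y a) := by unfold same; fun_prop

@[fun_prop] theorem tc_leaves (m : ℕ) {ix : α → List ℕ} {R F : α → List (List Bool)}
    (hi : TC 0 ix) (hR : TC 0 R) (hF : TC 0 F) : TC 0 fun a => leaves m (ix a) (R a) (F a) := by
  unfold leaves; fun_prop

@[fun_prop] theorem tc_glueE {ix : α → List ℕ} {x y : α → Ent} (hi : TC 0 ix) (hx : TC 0 x)
    (hy : TC 0 y) : TC 0 fun a => glueE (ix a) (x a) (y a) := by unfold glueE; fun_prop

@[fun_prop] theorem tc_pairs {ix : α → List ℕ} {R : α → List (List Bool)} {L : α → List Ent}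
    (hi : TC 0 ix) (hR : TC 0 R) (hL : TC 0 L) : TC 0 fun a => pairs (ix a) (R a) (L a) := by
  unfold pairs; fun_prop

@[fun_prop] theorem tc_pick {ix : α → List ℕ} {X : α → List Bool} {L : α → List Ent}
    (hi : TC 0 ix) (hX : TC 0 X) (hL : TC 0 L) : TC 0 fun a => pick (ix a) (X a) (L a) := by
  have h : TC 0 first := by unfold first; fun_prop
  unfold pick
  exact h.comp (by fun_prop)

@[fun_prop] theorem tc_dstep (m : ℕ) {ix : α → List ℕ} {R F : α → List (List Bool)}
    {L : α → List Ent} (hi : TC 0 ix) (hR : TC 0 R) (hF : TC 0 F) (hL : TC 0 L) :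
    TC 0 fun a => dstep m (ix a) (R a) (F a) (L a) := by unfold dstep; fun_prop

end tc

theorem mem_first {L : List Ent} {e : Ent} (h : e ∈ first L) : e ∈ L := by
  cases L <;> simp_all [first, isCons]

theorem first_len (L : List Ent) : (first L).length ≤ 1 := by
  cases L <;> simp [first, isCons]

theorem first_ne {L : List Ent} {e : Ent} (h : e ∈ L) : ∃ e', e' ∈ first L := by
  cases L <;> simp_all [first, isCons]

theorem mem_pick {ix : List ℕ} {X : List Bool} {L : List Ent} {e : Ent} (h : e ∈ pick ix X L) :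
    e ∈ L ∧ same ix e.1 X = true := by
  obtain ⟨x, hx, h1⟩ := List.mem_flatMap.1 (mem_first h)
  cases h2 : same ix x.1 X <;> simp_all

theorem pick_ne {ix : List ℕ} {X : List Bool} {L : List Ent} {e : Ent} (h : e ∈ L)
    (h' : same ix e.1 X = true) : ∃ e', e' ∈ pick ix X L :=
  first_ne (e := e) (List.mem_flatMap.2 ⟨e, h, by simp [h']⟩)

theorem mem_leaves {m : ℕ} {ix : List ℕ} {R F : List (List Bool)} {e : Ent} :
    e ∈ leaves m ix R F ↔ ∃ X ∈ F, eqn (cnt ix X) m = true ∧ noArc ix R X X = true ∧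
      e = (un ix X X, 1, ix.map fun _ => 0) := by
  simp only [leaves, List.mem_flatMap]
  refine exists_congr fun X => and_congr_right fun _ => ?_
  cases eqn (cnt ix X) m <;> cases noArc ix R X X <;> simp

theorem mem_pairs {ix : List ℕ} {R : List (List Bool)} {L : List Ent} {e : Ent} :
    e ∈ pairs ix R L ↔ ∃ x ∈ L, ∃ y ∈ L, disj ix x.1 y.1 = true ∧ noArc ix R y.1 x.1 = true ∧
      e = glueE ix x y := by
  simp only [pairs, List.mem_flatMap]
  refine exists_congr fun x => and_congr_right fun _ => exists_congr fun y =>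
    and_congr_right fun _ => ?_
  cases disj ix x.1 y.1 <;> cases noArc ix R y.1 x.1 <;> simp

theorem mem_dstep {m : ℕ} {ix : List ℕ} {R F : List (List Bool)} {L : List Ent} {e : Ent}
    (h : e ∈ dstep m ix R F L) : e ∈ leaves m ix R F ∨ e ∈ pairs ix R L := by
  obtain ⟨X, -, h1⟩ := List.mem_flatMap.1 h
  exact List.mem_append.1 (mem_pick h1).1

theorem dstep_len (m : ℕ) (ix : List ℕ) (R F : List (List Bool)) (L : List Ent) :
    (dstep m ix R F L).length ≤ F.length := by
  unfold dstep
  generalize leaves m ix R F ++ pairs ix R L = K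
  induction F with
  | nil => simp
  | cons X F ih =>
    have := first_len (K.flatMap fun e => bif same ix e.1 X then [e] else [])
    rw [List.flatMap_cons, List.length_append, List.length_cons, pick]
    omega

theorem getD_le {l : List ℕ} {b : ℕ} (h : ∀ x ∈ l, x ≤ b) (i : ℕ) : l.getD i 0 ≤ b := by
  by_cases hi : i < l.length
  · rw [List.getD_eq_getElem _ _ hi]
    exact h _ (List.getElem_mem hi)
  · rw [List.getD_eq_default _ _ (not_lt.1 hi)]
    exact Nat.zero_le _

section tc2

variable {α : Type} [Enc α]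

@[fun_prop] theorem tc_dp (m : ℕ) {ix : α → List ℕ} {R F : α → List (List Bool)} (hi : TC 0 ix)
    (hR : TC 0 R) (hF : TC 0 F) : TC 0 fun a => dp m (ix a) (R a) (F a) := by
  have b1 : Bd 0 fun a => 4 * (sz (ix a) + 1) + 1 :=
    ((Bd.const _ _).mul (hi.bd.add (Bd.const _ _))).add (Bd.const _ _)
  refine TC.foldl_inv (f := fun a L _ => dstep m (ix a) (R a) (F a) L) (by fun_prop) (by fun_prop)
    hi (S := fun a => sz (F a) * (sz (ix a) * 4 + 1 + (4 * (sz (ix a) + 1) + 1 +
      (sz (ix a) * (4 * (sz (ix a) + 1) + 1 + 1) + 1) + 1) + 1 + 1) + 1)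
    ((hF.bd.mul (((((hi.bd.mul (Bd.const _ _)).add (Bd.const _ _)).add ((b1.add ((hi.bd.mul
      (b1.add (Bd.const _ _))).add (Bd.const _ _))).add (Bd.const _ _))).add (Bd.const _ _)).add
      (Bd.const _ _))).add (Bd.const _ _))
    (fun a k L => L.length ≤ (F a).length ∧ ∀ e ∈ L, e.1.length ≤ (ix a).length ∧ e.2.1 ≤ 2 ^ k ∧
      e.2.2.length ≤ (ix a).length ∧ ∀ x ∈ e.2.2, x ≤ 2 ^ k)
    (fun a => by simp) (fun a k L x _ h => ⟨dstep_len _ _ _ _ _, fun e he => ?_⟩)
    fun a k L hk h => ?_
  · rcases mem_dstep he with he | he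
    · obtain ⟨X, -, -, -, rfl⟩ := mem_leaves.1 he
      simp [un, Nat.one_le_two_pow]
    · obtain ⟨x, hx, y, hy, -, -, rfl⟩ := mem_pairs.1 he
      obtain ⟨-, x1, -, x2⟩ := h.2 x hx
      obtain ⟨-, y1, -, y2⟩ := h.2 y hy
      refine ⟨by simp [glueE, un], by simp only [glueE, pow_succ]; omega, by simp [glueE],
        fun z hz => ?_⟩
      obtain ⟨i, -, rfl⟩ := List.mem_map.1 hz
      have := getD_le x2 i
      have := getD_le y2 i
      cases gb x.1 i <;> simp only [pow_succ, Bool.cond_true, Bool.cond_false] <;> omega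
  · have h1 := length_le_sz (ix a)
    have h2 : ∀ x, x ≤ 2 ^ k → sz x ≤ 4 * (sz (ix a) + 1) + 1 := fun x hx =>
      sz_nat_le (hx.trans_lt (Nat.pow_lt_pow_right (by norm_num) (by omega)))
    refine (sz_list_le fun e he => ?_).trans
      (Nat.add_le_add_right (Nat.mul_le_mul_right _ (h.1.trans (length_le_sz _))) _)
    obtain ⟨e1, e2, e3, e4⟩ := h.2 e he
    rw [sz_prod, sz_prod e.2]
    have := sz_bits (e1.trans h1)
    have := h2 _ e2
    have := (sz_list_le fun x hx => h2 x (e4 x hx)).trans
      (Nat.add_le_add_right (Nat.mul_le_mul_right _ (e3.trans h1)) _)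
    omega

@[fun_prop] theorem tc_slots (m : ℕ) {A : α → List (List Bool)} {T : α → ℕ} (hA : TC 0 A)
    (hT : TC 0 T) : TC 0 fun a => slots m (A a) (T a) := by unfold slots; fun_prop

@[fun_prop] theorem tc_fin (m : ℕ) {ix : α → List ℕ} {R : α → List (List Bool)} (hi : TC 0 ix)
    (hR : TC 0 R) : TC 0 fun a => fin m (ix a) (R a) :=
  tc_pick hi (by fun_prop) (tc_dp m hi hR (tc_fam _ hi (tc_base hi hR)))

theorem tc_outp {A : α → List (List Bool)} {ix : α → List ℕ} {L : α → List Ent} (hA : TC 0 A)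
    (hi : TC 0 ix) (hL : TC 0 L) : TC 0 fun a => outp (A a) (ix a) (L a) := by
  unfold outp; fun_prop

theorem tc_run (m : ℕ) {A : α → List (List Bool)} {T : α → ℕ} (hA : TC 0 A)
    (hT : TC 0 T) : TC 0 fun a => run m (A a) (T a) := by
  have h1 := tc_slots m hA hT
  exact tc_outp hA h1 (tc_fin m h1 (tc_clos h1 hA))

theorem tc_opt (m : ℕ) {A : α → List (List Bool)} (hA : TC 0 A) : TC 0 fun a => opt m (A a) := by
  have h : TC 0 fun p : α × ℕ => run m (A p.1) p.2 := tc_run m (hA.comp TC.fst') TC.snd'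
  exact TC.headD (tc_flatMap (TC.cond (TC.fst h) (TC.cons (TC.snd h) (TC.const [])) (TC.const []))
    (by fun_prop)) (TC.const [])

end tc2

end Vale.Agent.P324
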