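import Vale.Agent.P324.Stair

/-!
Perfect schedules, the exchange argument and the decomposition theorem.
-/

namespace Vale.Agent.P324

open Finset

variable {V : Type} [DecidableEq V] {r : V → V → Prop} {m : ℕ}

/-- `σ` puts exactly `m` jobs of `J` in each of the slots `0, …, T - 1`. -/
structure Sched (m : ℕ) (r : V → V → Prop) (J : Finset V) (T : ℕ) (σ : V → ℕ) : Prop where
  lt : ∀ z ∈ J, σ z < T
  cnt : ∀ t < T, (J.filter fun z => σ z = t).card = m
  ord : ∀ u ∈ J, ∀ v ∈ J, r u v → σ u < σ v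

theorem Sched.card {J : Finset V} {T : ℕ} {σ : V → ℕ} (h : Sched m r J T σ) :
    J.card = T * m := by
  rw [card_eq_sum_card_fiberwise (f := σ) (t := range T) fun z hz => mem_range.2 (h.lt z hz),
    sum_congr rfl fun t ht => h.cnt t (mem_range.1 ht)]
  simp

theorem Sched.congr {J : Finset V} {T : ℕ} {σ σ' : V → ℕ} (h : Sched m r J T σ)
    (he : ∀ z ∈ J, σ' z = σ z) : Sched m r J T σ' :=
  ⟨fun z hz => he z hz ▸ h.lt z hz,
    fun t ht => by rw [← h.cnt t ht, filter_congr fun z hz => by rw [he z hz]],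
    fun u hu v hv huv => by rw [he u hu, he v hv]; exact h.ord u hu v hv huv⟩

theorem Sched.glue {J1 J2 : Finset V} {T1 T2 : ℕ} {σ1 σ2 : V → ℕ} (h1 : Sched m r J1 T1 σ1)
    (h2 : Sched m r J2 T2 σ2) (hd : Disjoint J1 J2) (hr : ∀ u ∈ J2, ∀ v ∈ J1, ¬ r u v) :
    Sched m r (J1 ∪ J2) (T1 + T2) fun z => if z ∈ J1 then σ1 z else T1 + σ2 z := by
  have hm : ∀ z ∈ J1 ∪ J2, z ∉ J1 → z ∈ J2 := fun z hz h => (mem_union.1 hz).resolve_left h
  refine ⟨fun z hz => ?_, fun t ht => ?_, fun u hu v hv huv => ?_⟩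
  · split_ifs with h
    · have := h1.lt z h; omega
    · have := h2.lt z (hm z hz h); omega
  · by_cases h : t < T1
    · rw [← h1.cnt t h]
      congr 1
      ext z
      simp only [mem_filter, mem_union]
      by_cases hz : z ∈ J1
      · simp [hz]
      · simp only [hz, if_false, false_or, false_and, iff_false, not_and]
        omega
    · rw [← h2.cnt (t - T1) (by omega)]
      congr 1
      ext z
      simp only [mem_filter, mem_union]
      by_cases hz : z ∈ J1
      · have := h1.lt z hz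
        simp only [hz, if_true, true_or, true_and, disjoint_left.1 hd hz, false_and, iff_false]
        omega
      · simp only [hz, if_false, false_or]
        exact and_congr_right fun _ => by omega
  · split_ifs with h3 h4 h4
    · exact h1.ord u h3 v h4 huv
    · have := h1.lt u h3; omega
    · exact absurd huv (hr u (hm u hu h3) v h4)
    · have := h2.ord u (hm u hu h3) v (hm v hv h4) huv; omega

theorem Sched.left {J : Finset V} {T : ℕ} {σ : V → ℕ} (h : Sched m r J T σ) {t : ℕ}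
    (ht : t ≤ T) : Sched m r (J.filter fun z => σ z < t) t σ := by
  refine ⟨fun z hz => (mem_filter.1 hz).2, fun s hs => ?_,
    fun u hu v hv => h.ord u (mem_filter.1 hu).1 v (mem_filter.1 hv).1⟩
  rw [← h.cnt s (by omega), filter_filter]
  exact congrArg _ (filter_congr fun z _ => by omega)

theorem Sched.right {J : Finset V} {T : ℕ} {σ : V → ℕ} (h : Sched m r J T σ) (t : ℕ) :
    Sched m r (J.filter fun z => t ≤ σ z) (T - t) fun z => σ z - t := by
  refine ⟨fun z hz => ?_, fun s hs => ?_, fun u hu v hv huv => ?_⟩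
  · have := h.lt z (mem_filter.1 hz).1
    have := (mem_filter.1 hz).2
    omega
  · rw [← h.cnt (s + t) (by omega), filter_filter]
    exact congrArg _ (filter_congr fun z _ => by omega)
  · have := h.ord u (mem_filter.1 hu).1 v (mem_filter.1 hv).1 huv
    have := (mem_filter.1 hu).2
    omega

/-- A perfect schedule with the jobs of `P` in the last slot. -/
def Feas (m : ℕ) (r : V → V → Prop) (J P : Finset V) (T : ℕ) (σ : V → ℕ) : Prop :=
  Sched m r J T σ ∧ ∀ p ∈ P, σ p + 1 = T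

/-- If a maximal job is as late as possible, all later jobs succeed one of its slot mates. -/
theorem exchange (htr : ∀ a b c, r a b → r b c → r a c) {J P : Finset V} {T : ℕ} {σ : V → ℕ}
    (h : Feas m r J P T σ) {j : V} (hj : j ∈ J) (hjP : j ∉ P) (hs : ∀ z ∈ J, ¬ r j z)
    (hmax : ∀ σ', Feas m r J P T σ' → σ' j ≤ σ j) :
    ∀ k ∈ J, k ∉ P → σ j < σ k → ∃ a ∈ J, a ≠ j ∧ σ a = σ j ∧ r a k := by
  intro k
  induction hn : σ k using Nat.strong_induction_on generalizing k with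
  | _ n ih =>
  intro hk hkP hlt
  subst hn
  by_cases hu : ∃ u ∈ J, r u k ∧ σ j ≤ σ u
  · obtain ⟨u, hu, h1, h2⟩ := hu
    have h3 := h.1.ord u hu k hk h1
    rcases h2.eq_or_lt with h2 | h2
    · exact ⟨u, hu, fun e => hs k hk (e ▸ h1), h2.symm, h1⟩
    · have h4 : u ∉ P := fun hp => by
        have := h.2 u hp
        have := h.1.lt k hk
        omega
      obtain ⟨a, ha, h5, h6, h7⟩ := ih _ h3 u rfl hu h4 h2
      exact ⟨a, ha, h5, h6, htr _ _ _ h7 h1⟩
  push Not at hu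
  have hsw : ∀ z, Equiv.swap j k z ∈ J ↔ z ∈ J := fun z => by
    rw [Equiv.swap_apply_def]
    split_ifs with h1 h2
    · simp [h1, hj, hk]
    · simp [h2, hj, hk]
    · rfl
  have := hmax (fun z => σ (Equiv.swap j k z)) ⟨⟨fun z hz => h.1.lt _ ((hsw z).2 hz),
    fun t ht => ?_, fun u hu' v hv huv => ?_⟩, fun p hp => ?_⟩
  · simp only [Equiv.swap_apply_left] at this
    omega
  · rw [← h.1.cnt t ht]
    exact card_equiv (Equiv.swap j k) fun z => by simp only [mem_filter, hsw]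
  · have h1 : u ≠ j := fun e => hs v hv (e ▸ huv)
    have h2 := h.1.ord u hu' v hv huv
    simp only [Equiv.swap_apply_def, h1, if_false]
    by_cases h3 : u = k
    · subst h3
      have h4 : v ≠ j := fun e => by rw [e] at h2; omega
      have h5 : v ≠ u := fun e => by rw [e] at h2; omega
      simp only [h4, h5, if_true, if_false]
      omega
    · simp only [h3, if_false]
      split_ifs with h4 h5
      · rw [h4] at h2; omega
      · exact hu u hu' (h5 ▸ huv)
      · exact h2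
  · dsimp only
    rw [Equiv.swap_apply_of_ne_of_ne (fun e : p = j => hjP (e ▸ hp))
      fun e : p = k => hkP (e ▸ hp)]
    exact h.2 p hp

/-- Sets that the dynamic programme accepts. -/
inductive Good (m : ℕ) (r : V → V → Prop) (F : Finset V → Prop) : Finset V → Prop
  | leaf (J : Finset V) : F J → J.card = m → (∀ u ∈ J, ∀ v ∈ J, ¬ r u v) → Good m r F J
  | cut (J1 J2 : Finset V) : Good m r F J1 → Good m r F J2 → F (J1 ∪ J2) → Disjoint J1 J2 →
      (∀ u ∈ J2, ∀ v ∈ J1, ¬ r u v) → Good m r F (J1 ∪ J2)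

variable [Fintype V] [DecidableRel r] {lam : V → ℕ} {big : ℕ} {B : Finset V → Prop}

theorem decomp (C : Ctx r lam big B) (hm : 1 ≤ m) (n : ℕ) :
    ∀ (U R G P : Finset V) (S : Finset (Finset V × ℕ)) (T : ℕ), (m + 1) * G.card + P.card = n →
      G = (U ∩ sset lam S) \ R → (∀ u ∈ U, ∀ v, r u v → v ∈ U) → Lvl B m U → Lvl B m R →
      Stair r lam B m S → Disjoint P (sset lam S) → Froz r lam S P → 1 ≤ T →
      (∃ σ, Feas m r (G ∪ P) P T σ) →
      (∀ σ, Feas m r (G ∪ P) P T σ → ∀ z ∈ U, z ∈ sset lam S → z ∈ R →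
        ∃ a ∈ G, σ a + 1 = T ∧ r a z) →
      Good m r (Lvl B (2 * m + 6)) (G ∪ P) := by
  induction n using Nat.strong_induction_on with
  | _ n ih =>
  intro U R G P S T hn hG hU lU lR hS hd hF hT ⟨σ0, h0⟩ hN
  have mG : ∀ z, z ∈ G ↔ z ∈ U ∧ z ∈ sset lam S ∧ z ∉ R := fun z => by
    simp [hG, and_assoc]
  have hGP : ∀ z ∈ G, z ∉ P := fun z hz hp => disjoint_left.1 hd hp ((mG z).1 hz).2.1
  have hlast : ∀ σ, Feas m r (G ∪ P) P T σ → P ⊆ (G ∪ P).filter fun z => σ z = T - 1 :=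
    fun σ h p hp => mem_filter.2 ⟨mem_union_right _ hp, by have := h.2 p hp; omega⟩
  have hPm : P.card ≤ m := (card_le_card (hlast σ0 h0)).trans (h0.1.cnt _ (by omega)).le
  have lJ : Lvl B (2 * m + 6) (G ∪ P) := by
    rw [hG]
    exact Lvl.union _ _ _ (Lvl.sdiff _ _ _ ((lU.mono (by omega)).inter (hS.lvl_sset C))
      (lR.mono (by omega))) ((C.lvl_small hPm).mono (by omega))
  rcases hPm.eq_or_lt with hPm' | hPm'
  · have e := eq_of_subset_of_card_le (hlast σ0 h0) (by rw [h0.1.cnt _ (by omega), hPm'])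
    have hG0 : ∀ a ∈ G, σ0 a + 1 < T := fun a ha => by
      have h1 := h0.1.lt a (mem_union_left _ ha)
      by_contra h2
      exact hGP a ha (e ▸ mem_filter.2 ⟨mem_union_left _ ha, by omega⟩)
    have gP : Good m r (Lvl B (2 * m + 6)) P :=
      Good.leaf P ((C.lvl_small hPm).mono (by omega)) hPm' fun u hu v hv huv => by
        have := h0.1.ord u (mem_union_right _ hu) v (mem_union_right _ hv) huv
        have := h0.2 u hu
        have := h0.2 v hv
        omega
    rcases G.eq_empty_or_nonempty with rfl | ⟨a, ha⟩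
    · rwa [empty_union]
    have e2 : (G ∪ P).filter (fun z => σ0 z < T - 1) = G ∪ ∅ := by
      ext z
      simp only [mem_filter, mem_union, notMem_empty, or_false]
      exact ⟨fun h => h.1.resolve_right fun hp => by have := h0.2 z hp; omega,
        fun h => ⟨Or.inl h, by have := hG0 z h; omega⟩⟩
    have g := ih _ (by rw [← hn, card_empty]; omega) U ∅ G ∅ S (T - 1) rfl ?_ hU lU
      ((Lvl.base _ C.empty).mono (Nat.zero_le _)) hS (disjoint_empty_left _)
      (fun _ h => absurd h (notMem_empty _)) (by have := hG0 a ha; omega)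
      ⟨σ0, e2 ▸ h0.1.left (Nat.sub_le _ _), fun _ h => absurd h (notMem_empty _)⟩
      fun _ _ _ _ _ h => absurd h (notMem_empty _)
    · rw [union_empty] at g
      refine Good.cut _ _ g gP lJ (disjoint_left.2 hGP) fun u hu v hv huv => ?_
      have := h0.1.ord u (mem_union_right _ hu) v (mem_union_left _ hv) huv
      have := h0.2 u hu
      have := hG0 v hv
      omega
    · ext z
      simp only [mG, mem_sdiff, mem_inter, notMem_empty, not_false_eq_true, and_true]
      refine and_congr_right fun h1 => ⟨And.left, fun h2 => ⟨h2, fun h3 => ?_⟩⟩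
      obtain ⟨a, ha, h4, -⟩ := hN σ0 h0 z h1 h2 h3
      have := hG0 a ha
      omega
  obtain ⟨a0, ha0, ha0'⟩ := exists_mem_notMem_of_card_lt_card
    (show P.card < ((G ∪ P).filter fun z => σ0 z = T - 1).card by
      rwa [h0.1.cnt _ (by omega)])
  obtain ⟨j, hj, S', hS', hsub, hjS, hGe, hF'⟩ := stair_step C hS hPm' hF
    (G := G) (fun z hz => ((mG z).1 hz).2.1)
    ⟨a0, (mem_union.1 (mem_filter.1 ha0).1).resolve_right ha0', fun p hp h => by
      have := h0.1.ord a0 (mem_filter.1 ha0).1 p (mem_union_right _ hp) h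
      have := h0.2 p hp
      have := (mem_filter.1 ha0).2
      omega⟩
  have mG' : ∀ z, z ∈ G.erase j ↔ z ∈ U ∧ z ∈ sset lam S' ∧ z ∉ R := fun z =>
    ⟨fun h => ⟨((mG z).1 (mem_of_mem_erase h)).1, hGe h, ((mG z).1 (mem_of_mem_erase h)).2.2⟩,
      fun h => mem_erase.2 ⟨fun e => hjS (e ▸ h.2.1), (mG z).2 ⟨h.1, hsub h.2.1, h.2.2⟩⟩⟩
  have hjs : ∀ z ∈ sset lam S', ¬ r j z := fun z hz h => hjS (hS'.sset_down C hz h)
  have hsink : ∀ z ∈ G ∪ P, ¬ r j z := fun z hz h => by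
    rcases mem_union.1 hz with hz | hz
    · exact hjs z (hGe (mem_erase.2 ⟨fun e => lt_irrefl _ (e ▸ C.lt _ _ h), hz⟩)) h
    · obtain ⟨w, hw, h1⟩ := hF' z (mem_insert_of_mem hz)
      exact hjS (mem_sset.2 ⟨w, hw, h1 j h⟩)
  have hjJ : j ∈ G ∪ P := mem_union_left _ hj
  obtain ⟨σ, h, hmax⟩ : ∃ σ, Feas m r (G ∪ P) P T σ ∧
      ∀ σ', Feas m r (G ∪ P) P T σ' → σ' j ≤ σ j := by
    classical
    obtain ⟨t, ht, h1⟩ := exists_max_image
      ((range T).filter fun t => ∃ σ, Feas m r (G ∪ P) P T σ ∧ σ j = t) id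
      ⟨σ0 j, mem_filter.2 ⟨mem_range.2 (h0.1.lt j hjJ), σ0, h0, rfl⟩⟩
    obtain ⟨σ, h2, rfl⟩ := (mem_filter.1 ht).2
    exact ⟨σ, h2, fun σ' h' => h1 _ (mem_filter.2 ⟨mem_range.2 (h'.1.lt j hjJ), σ', h', rfl⟩)⟩
  have hd' : Disjoint (insert j P) (sset lam S') := by
    rw [disjoint_insert_left]
    exact ⟨hjS, hd.mono_right hsub⟩
  have hcG := card_erase_add_one hj
  have hjT := h.1.lt j hjJ
  by_cases hl : σ j + 1 = T
  · have e : G.erase j ∪ insert j P = G ∪ P := by
      rw [union_insert, ← insert_union, insert_erase hj]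
    rw [← e]
    refine ih _ ?_ U R (G.erase j) (insert j P) S' T rfl
      (by ext z; simp [mG', and_assoc, -mem_erase]) hU lU lR hS' hd' hF' hT
      ⟨σ, e ▸ h.1, fun p hp => ?_⟩ fun σ' h' z h1 h2 h3 => ?_
    · have := card_insert_le j P
      rw [← hn, ← hcG, mul_add]
      omega
    · rcases mem_insert.1 hp with rfl | hp
      · exact hl
      · exact h.2 p hp
    · obtain ⟨a, ha, h4, h5⟩ := hN σ' ⟨e ▸ h'.1, fun p hp => h'.2 p (mem_insert_of_mem hp)⟩
        z h1 (hsub h2) h3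
      exact ⟨a, mem_erase.2 ⟨fun e => hjs z h2 (e ▸ h5), ha⟩, h4, h5⟩
  set A := (G.erase j).filter fun z => σ z = σ j with hA
  have hAm : A.card ≤ m := by
    rw [← h.1.cnt _ hjT]
    exact card_le_card (filter_subset_filter _ ((erase_subset _ _).trans subset_union_left))
  have key : ∀ σ', Feas m r (G ∪ P) P T σ' → σ' j = σ j → ∀ k ∈ G, σ j < σ' k →
      ∃ a ∈ G.erase j, σ' a = σ j ∧ r a k := fun σ' h' e k hk hlt => by
    obtain ⟨a, ha, h1, h2, h3⟩ := exchange C.trans h' hjJ (hGP j hj) hsink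
      (fun σ'' h'' => e ▸ hmax σ'' h'') k (mem_union_left _ hk) (hGP k hk) (e ▸ hlt)
    refine ⟨a, mem_erase.2 ⟨h1, (mem_union.1 ha).resolve_right fun hp => ?_⟩, h2.trans e, h3⟩
    have := h'.2 a hp
    omega
  have hsA : ∀ k ∈ G, (k ∈ suc r A ↔ σ j < σ k) := fun k hk =>
    ⟨fun h1 => by
      obtain ⟨a, ha, h2⟩ := mem_suc.1 h1
      obtain ⟨h3, h4⟩ := mem_filter.1 ha
      exact h4 ▸ h.1.ord a (mem_union_left _ (mem_of_mem_erase h3)) k (mem_union_left _ hk) h2,
    fun h1 => by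
      obtain ⟨a, ha, h2, h3⟩ := key σ h rfl k hk h1
      exact mem_suc.2 ⟨a, mem_filter.2 ⟨ha, h2⟩, h3⟩⟩
  have hup : ∀ u ∈ suc r A, ∀ v, r u v → v ∈ suc r A := fun u hu v huv => by
    obtain ⟨a, ha, h1⟩ := mem_suc.1 hu
    exact mem_suc.2 ⟨a, ha, C.trans _ _ _ h1 huv⟩
  have hAU : ∀ z ∈ suc r A, z ∈ U := fun z hz => by
    obtain ⟨a, ha, h1⟩ := mem_suc.1 hz
    exact hU a ((mG' a).1 (mem_filter.1 ha).1).1 z h1
  set Gl := (G.erase j).filter fun z => σ z ≤ σ j with hGL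
  set Gr := (G.erase j).filter fun z => σ j < σ z with hGR
  have eL : (G ∪ P).filter (fun z => σ z < σ j + 1) = Gl ∪ {j} := by
    ext z
    simp only [hGL, mem_filter, mem_union, mem_erase, mem_singleton]
    constructor
    · rintro ⟨h1 | h1, h2⟩
      · by_cases e : z = j
        · exact Or.inr e
        · exact Or.inl ⟨⟨e, h1⟩, by omega⟩
      · have := h.2 z h1
        omega
    · rintro (⟨h1, h2⟩ | rfl)
      · exact ⟨Or.inl h1.2, by omega⟩
      · exact ⟨Or.inl hj, by omega⟩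
  have eR : (G ∪ P).filter (fun z => σ j + 1 ≤ σ z) = Gr ∪ P := by
    ext z
    simp only [hGR, mem_filter, mem_union, mem_erase]
    constructor
    · rintro ⟨h1 | h1, h2⟩
      · exact Or.inl ⟨⟨fun e => by rw [e] at h2; omega, h1⟩, h2⟩
      · exact Or.inr h1
    · rintro (⟨h1, h2⟩ | h1)
      · exact ⟨Or.inl h1.2, h2⟩
      · exact ⟨Or.inr h1, by have := h.2 z h1; omega⟩
  have mL : ∀ z, z ∈ Gl ∪ {j} ↔ z ∈ G ∪ P ∧ σ z < σ j + 1 := fun z => by rw [← eL, mem_filter]
  have mR : ∀ z, z ∈ Gr ∪ P ↔ z ∈ G ∪ P ∧ σ j + 1 ≤ σ z := fun z => by rw [← eR, mem_filter]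
  have eJ : (Gl ∪ {j}) ∪ (Gr ∪ P) = G ∪ P := by
    ext z
    rw [mem_union, mL, mR, ← and_or_left]
    exact and_iff_left (by omega)
  have hdis : Disjoint (Gl ∪ {j}) (Gr ∪ P) := disjoint_left.2 fun z h1 h2 => by
    have := ((mL z).1 h1).2
    have := ((mR z).1 h2).2
    omega
  have hback : ∀ u ∈ Gr ∪ P, ∀ v ∈ Gl ∪ {j}, ¬ r u v := fun u hu v hv huv => by
    have := h.1.ord u ((mR u).1 hu).1 v ((mL v).1 hv).1 huv
    have := ((mL v).1 hv).2
    have := ((mR u).1 hu).2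
    omega
  have sL : Sched m r (Gl ∪ {j}) (σ j + 1) σ := eL ▸ h.1.left hjT
  have sR : Sched m r (Gr ∪ P) (T - (σ j + 1)) fun z => σ z - (σ j + 1) := eR ▸ h.1.right _
  have eT : σ j + 1 + (T - (σ j + 1)) = T := by omega
  have glue : ∀ σ1 σ2, Sched m r (Gl ∪ {j}) (σ j + 1) σ1 →
      Feas m r (Gr ∪ P) P (T - (σ j + 1)) σ2 →
      Feas m r (G ∪ P) P T fun z => if z ∈ Gl ∪ {j} then σ1 z else σ j + 1 + σ2 z :=
    fun σ1 σ2 h1 h2 => ⟨by
      have := h1.glue h2.1 hdis hback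
      rwa [eJ, eT] at this, fun p hp => by
      have := h2.2 p hp
      simp only [disjoint_right.1 hdis (mem_union_right _ hp), if_false]
      omega⟩
  have fR : Feas m r (Gr ∪ P) P (T - (σ j + 1)) fun z => σ z - (σ j + 1) :=
    ⟨sR, fun p hp => by have := h.2 p hp; dsimp only; omega⟩
  have hRA : ∀ z ∈ U, z ∈ sset lam S' → z ∈ R → ∃ a ∈ G, σ j < σ a ∧ r a z := fun z h1 h2 h3 => by
    obtain ⟨a, ha, h4, h5⟩ := hN σ h z h1 (hsub h2) h3
    exact ⟨a, ha, by omega, h5⟩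
  have cL : Gl.card ≤ (G.erase j).card := card_filter_le _ _
  have cR : Gr.card ≤ (G.erase j).card := card_filter_le _ _
  have gL := ih _ ?_ U (suc r A) Gl {j} S' (σ j + 1) rfl ?_ hU lU (C.lvl_suc hAm) hS'
    (hd'.mono_left (by simp)) (fun p hp => hF' p (by simp [mem_singleton.1 hp])) (by omega)
    ⟨σ, sL, fun p hp => by rw [mem_singleton.1 hp]⟩ fun σ1 h1 z hz1 hz2 hz3 => ?_
  have gR := ih _ ?_ (suc r A) R Gr P S' (T - (σ j + 1)) rfl ?_ hup (C.lvl_suc hAm) lR hS'
    (hd.mono_right hsub) (fun p hp => hF' p (mem_insert_of_mem hp)) (by omega)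
    ⟨_, fR⟩ fun σ2 h2 z hz1 hz2 hz3 => ?_
  · rw [← eJ]
    exact Good.cut _ _ gL gR (eJ ▸ lJ) hdis hback
  · have := Nat.mul_le_mul_left (m + 1) cR
    rw [← hn, ← hcG, mul_add]
    omega
  · ext z
    simp only [hGR, mem_filter, mem_sdiff, mem_inter]
    exact ⟨fun h1 => ⟨⟨(hsA z (mem_of_mem_erase h1.1)).2 h1.2, hGe h1.1⟩, ((mG' z).1 h1.1).2.2⟩,
      fun h1 => have h2 := (mG' z).2 ⟨hAU z h1.1.1, h1.1.2, h1.2⟩
        ⟨h2, (hsA z (mem_of_mem_erase h2)).1 h1.1.1⟩⟩
  · obtain ⟨a, ha, h3, h4⟩ := hN _ (glue σ σ2 sL h2) z (hAU z hz1) (hsub hz2) hz3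
    by_cases h5 : a ∈ Gl ∪ {j}
    · have := ((mL a).1 h5).2
      simp only [h5, if_true] at h3
      omega
    · simp only [h5, if_false] at h3
      refine ⟨a, (mem_union.1 ((mem_union.1 (eJ ▸ mem_union_left _ ha)).resolve_left h5)).resolve_right
        (hGP a ha), by omega, h4⟩
  · have := Nat.mul_le_mul_left (m + 1) cL
    rw [← hn, ← hcG, mul_add, card_singleton]
    omega
  · ext z
    simp only [hGL, mem_filter, mem_sdiff, mem_inter]
    refine ⟨fun h1 => ⟨⟨((mG' z).1 h1.1).1, hGe h1.1⟩, fun h2 =>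
      absurd ((hsA z (mem_of_mem_erase h1.1)).1 h2) (not_lt.2 h1.2)⟩, fun h1 => ?_⟩
    have h2 : z ∈ G.erase j := (mG' z).2 ⟨h1.1.1, h1.1.2, fun h3 => by
      obtain ⟨a, ha, h4, h5⟩ := hRA z h1.1.1 h1.1.2 h3
      exact h1.2 (hup a ((hsA a ha).2 h4) z h5)⟩
    exact ⟨h2, not_lt.1 fun h3 => h1.2 ((hsA z (mem_of_mem_erase h2)).2 h3)⟩
  · have g := glue σ1 _ h1.1 fR
    have hj1 : σ1 j = σ j := by
      have := h1.2 j (mem_singleton_self j)
      omega
    have k2 : ∀ k ∈ G, σ j < σ k → ∃ a ∈ Gl, σ1 a + 1 = σ j + 1 ∧ r a k := fun k hk hlt => by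
      have hk' : k ∉ Gl ∪ {j} := fun h2 => by have := ((mL k).1 h2).2; omega
      obtain ⟨a, ha, h2, h3⟩ := key _ g (by simp [hj1]) k hk (by simp only [hk', if_false]; omega)
      by_cases h4 : a ∈ Gl ∪ {j}
      · simp only [h4, if_true] at h2
        exact ⟨a, (mem_union.1 h4).resolve_right fun e => (mem_erase.1 ha).1 (mem_singleton.1 e),
          by omega, h3⟩
      · simp only [h4, if_false] at h2
        omega
    by_cases h2 : z ∈ R
    · obtain ⟨a, ha, h3, h4⟩ := hRA z hz1 hz2 h2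
      obtain ⟨b, hb, h5, h6⟩ := k2 a ha h3
      exact ⟨b, hb, h5, C.trans _ _ _ h6 h4⟩
    · have h3 := mem_of_mem_erase ((mG' z).2 ⟨hz1, hz2, h2⟩)
      exact k2 z h3 ((hsA z h3).1 hz3)

theorem good_univ (C : Ctx r lam big B) (hm : 1 ≤ m) {T : ℕ} (hT : 1 ≤ T) {σ : V → ℕ}
    (h : Sched m r univ T σ) : Good m r (Lvl B (2 * m + 6)) univ := by
  have hu : Lvl B m univ := (Lvl.base _ C.univ).mono (Nat.zero_le _)
  have := decomp C hm _ univ ∅ univ ∅ {(univ, big)} T rfl ?_ (fun _ _ _ _ => mem_univ _) hu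
    ((Lvl.base _ C.empty).mono (Nat.zero_le _)) ⟨by simpa using hm, by simp, by simp, ?_⟩
    (disjoint_empty_left _) (fun _ h => absurd h (notMem_empty _)) hT
    ⟨σ, by simpa using h, fun _ h => absurd h (notMem_empty _)⟩
    fun _ _ _ _ _ h => absurd h (notMem_empty _)
  · simpa using this
  · ext z
    simp [mem_sset, C.hbig]
  · intro w hw
    rw [mem_singleton.1 hw, filter_true_of_mem fun z _ => C.hbig z]
    exact ⟨hu, C.univ⟩

end Vale.Agent.P324
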