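import Mathlib.Computability.TuringMachine.Computable
import Mathlib.Data.Nat.Bits
import Mathlib.Data.Fintype.Card

namespace Vale.Agent.P324

/-- A precedence graph on the jobs `0, …, n - 1` with `n ≥ 1`, given by its adjacency matrix:
`adj u v = true` means that `(u, v)` is an arc. -/
structure Graph where
  n : ℕ
  hn : 1 ≤ n
  adj : Fin n → Fin n → Bool

/-- The graph has no directed cycle. -/
def Graph.Acyclic (G : Graph) : Prop := ∀ v, ¬ Relation.TransGen (fun a b => G.adj a b = true) v v

/-- `τ` is a schedule of length `T` on `m` machines: it has values in `1, …, T`, takes each value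
at most `m` times and increases strictly along every arc. -/
def Graph.IsSchedule (G : Graph) (m T : ℕ) (τ : Fin G.n → ℕ) : Prop :=
  (∀ v, 1 ≤ τ v ∧ τ v ≤ T) ∧ (∀ t, (Finset.univ.filter fun v => τ v = t).card ≤ m) ∧
    ∀ u v, G.adj u v = true → τ u < τ v

/-- Self-delimiting binary codes of bits, pairs, lists and naturals (in binary). -/
def encBool (b : Bool) : List Bool := if b then [true, false, false] else [false]

def encPair {α β : Type} (f : α → List Bool) (g : β → List Bool) (p : α × β) : List Bool :=
  true :: (f p.1 ++ g p.2)

def encList {α : Type} (f : α → List Bool) (l : List α) : List Bool :=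
  l.flatMap (fun a => true :: f a) ++ [false]

def encNat (n : ℕ) : List Bool := encList encBool n.bits

/-- The code of a graph: the list of the rows of its adjacency matrix. -/
def encGraph (G : Graph) : List Bool :=
  encList (encList encBool) (List.ofFn fun u => List.ofFn (G.adj u))

end Vale.Agent.P324
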