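import Vale.Agent.P324.Algo
import Vale.Agent.P324.Decomp

/-! Correctness of the dynamic programme. -/

namespace Vale.Agent.P324

open Finset Function Vale.Agent.Common.TreeTM

theorem eqn_iff {a b : ℕ} : eqn a b = true ↔ a = b := by
  simp only [eqn, nlt, Bool.not_eq_true', Bool.or_eq_false_iff, decide_eq_false_iff_not]
  omega

variable {N : ℕ}

theorem getD_range {β : Type} (f : ℕ → β) (d : β) (i : ℕ) :
    ((List.range N).map f).getD i d = if i < N then f i else d := by
  split_ifs with h
  · rw [List.getD_eq_getElem _ _ (by simpa using h)]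
    simp
  · exact List.getD_eq_default _ _ (by simpa using h)

theorem gb_range (f : ℕ → Bool) (i : ℕ) :
    gb ((List.range N).map f) i = true ↔ i < N ∧ f i = true := by
  rw [gb, getD_range]
  split_ifs with h <;> simp [h]

theorem gm_range (f : ℕ → ℕ → Bool) (u v : ℕ) :
    gm ((List.range N).map fun u => (List.range N).map fun v => f u v) u v = true ↔
      u < N ∧ v < N ∧ f u v = true := by
  rw [gm, getD_range]
  split_ifs with h
  · simp [gb_range, h]
  · simp [gb, h]

theorem gm_wstep (M : List (List Bool)) (k u v : ℕ) :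
    gm (wstep (List.range N) M k) u v = true ↔
      u < N ∧ v < N ∧ (gm M u v = true ∨ (gm M u k = true ∧ gm M k v = true)) := by
  rw [wstep, gm_range]
  simp

theorem wfold (s : ℕ → ℕ → Prop) (hs : ∀ a b c, s a b → s b c → s a c) (l : List ℕ) :
    ∀ (M : List (List Bool)) (K : ℕ → Prop),
      (∀ u v, gm M u v = true → u < N ∧ v < N ∧ s u v) →
      (∀ w, K w → ∀ u v, gm M u w = true → gm M w v = true → gm M u v = true) →
      (∀ u v, gm (l.foldl (wstep (List.range N)) M) u v = true → u < N ∧ v < N ∧ s u v) ∧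
      (∀ u v, gm M u v = true → gm (l.foldl (wstep (List.range N)) M) u v = true) ∧
      ∀ w, K w ∨ w ∈ l → ∀ u v, gm (l.foldl (wstep (List.range N)) M) u w = true →
        gm (l.foldl (wstep (List.range N)) M) w v = true →
        gm (l.foldl (wstep (List.range N)) M) u v = true := by
  induction l with
  | nil => exact fun M K h1 h2 => ⟨h1, fun _ _ h => h, fun w hw => h2 w (by simpa using hw)⟩
  | cons k l ih =>
    intro M K h1 h2
    obtain ⟨a1, a2, a3⟩ := ih (wstep (List.range N) M k) (fun w => K w ∨ w = k)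
      (fun u v h => by
        obtain ⟨b1, b2, b3⟩ := (gm_wstep M k u v).1 h
        exact ⟨b1, b2, b3.elim (fun h => (h1 u v h).2.2)
          fun h => hs _ _ _ (h1 _ _ h.1).2.2 (h1 _ _ h.2).2.2⟩)
      fun w hw u v b1 b2 => by
        rw [gm_wstep] at b1 b2 ⊢
        refine ⟨b1.1, b2.2.1, ?_⟩
        rcases hw with hw | rfl
        · have := h2 w hw
          rcases b1.2.2 with c1 | c1 <;> rcases b2.2.2 with c2 | c2
          · exact Or.inl (this _ _ c1 c2)
          · exact Or.inr ⟨this _ _ c1 c2.1, c2.2⟩
          · exact Or.inr ⟨c1.1, this _ _ c1.2 c2⟩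
          · exact Or.inr ⟨c1.1, c2.2⟩
        · exact Or.inr ⟨b1.2.2.elim id And.left, b2.2.2.elim id And.right⟩
    refine ⟨a1, fun u v h => a2 u v ((gm_wstep M k u v).2
      ⟨(h1 u v h).1, (h1 u v h).2.1, Or.inl h⟩), fun w hw => a3 w ?_⟩
    rw [List.mem_cons] at hw
    tauto

theorem clos_spec (A : List (List Bool)) (s : ℕ → ℕ → Prop) (hs : ∀ a b c, s a b → s b c → s a c)
    (hA : ∀ u v, u < N → v < N → gm A u v = true → s u v) :
    (∀ u v, gm (clos (List.range N) A) u v = true → s u v) ∧
    (∀ u v, u < N → v < N → gm A u v = true → gm (clos (List.range N) A) u v = true) ∧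
    ∀ u w v, gm (clos (List.range N) A) u w = true → gm (clos (List.range N) A) w v = true →
      gm (clos (List.range N) A) u v = true := by
  obtain ⟨a1, a2, a3⟩ := wfold (N := N) s hs (List.range N)
    ((List.range N).map fun u => (List.range N).map fun v => gm A u v) (fun _ => False)
    (fun u v h => by
      obtain ⟨b1, b2, b3⟩ := (gm_range _ u v).1 h
      exact ⟨b1, b2, hA u v b1 b2 b3⟩) fun _ h => h.elim
  exact ⟨fun u v h => (a1 u v h).2.2, fun u v hu hv h => a2 u v ((gm_range _ u v).2 ⟨hu, hv, h⟩),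
    fun u w v h1 h2 => a3 w (Or.inr (List.mem_range.2 (a1 u w h1).2.1)) u v h1 h2⟩

/-- The set coded by a bit vector and the relation coded by a matrix. -/
def st (N : ℕ) (X : List Bool) : Finset (Fin N) := univ.filter fun i => gb X i = true

def rel (N : ℕ) (R : List (List Bool)) (u v : Fin N) : Prop := gm R u v = true

instance (R : List (List Bool)) : DecidableRel (rel N R) := fun _ _ =>
  inferInstanceAs (Decidable (_ = true))

theorem mem_st {X : List Bool} {i : Fin N} : i ∈ st N X ↔ gb X i = true := by simp [st]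

theorem st_map (f : ℕ → Bool) :
    st N ((List.range N).map f) = univ.filter fun i : Fin N => f i = true := by
  ext i; simp [mem_st, gb_range]

theorem st_un (X Y : List Bool) : st N (un (List.range N) X Y) = st N X ∪ st N Y := by
  ext i; simp [un, st_map, mem_st]

theorem st_df (X Y : List Bool) : st N (df (List.range N) X Y) = st N X \ st N Y := by
  ext i; simp [df, st_map, mem_st]

theorem sum_ind (f : ℕ → Bool) : ((List.range N).map fun i => bif f i then 1 else 0).sum =
    (univ.filter fun i : Fin N => f i = true).card := by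
  rw [card_filter, Fin.sum_univ_eq_sum_range (fun i => if f i = true then 1 else 0) N]
  simp only [Bool.cond_eq_ite]
  rfl

theorem cnt_eq (X : List Bool) : cnt (List.range N) X = (st N X).card := sum_ind _

theorem all_range (f : ℕ → Bool) : (List.range N).all f = true ↔ ∀ i : Fin N, f i = true := by
  simp only [List.all_eq_true, List.mem_range]
  exact ⟨fun h i => h i i.2, fun h i hi => h ⟨i, hi⟩⟩

theorem noArc_iff (R : List (List Bool)) (X Y : List Bool) : noArc (List.range N) R X Y = true ↔
    ∀ u ∈ st N X, ∀ v ∈ st N Y, ¬ rel N R u v := by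
  simp only [noArc, all_range, mem_st, rel]
  refine forall_congr' fun u => ?_
  rw [imp_forall_iff]
  refine forall_congr' fun v => ?_
  cases gb X u <;> cases gb Y v <;> simp

theorem disj_iff (X Y : List Bool) :
    disj (List.range N) X Y = true ↔ Disjoint (st N X) (st N Y) := by
  simp only [disj, all_range, disjoint_left, mem_st]
  refine forall_congr' fun u => ?_
  cases gb X u <;> cases gb Y u <;> simp

theorem same_iff (X Y : List Bool) : same (List.range N) X Y = true ↔ st N X = st N Y := by
  simp only [same, all_range, Finset.ext_iff, mem_st]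
  refine forall_congr' fun u => ?_
  cases gb X u <;> cases gb Y u <;> simp

theorem fam_complete (L : List (List Bool)) {c : ℕ} {J : Finset (Fin N)}
    (h : Lvl (fun J => ∃ X ∈ L, st N X = J) c J) :
    ∃ X ∈ (grow (List.range N))^[c] L, st N X = J := by
  induction h with
  | base X h => exact h
  | union k X Y _ _ h1 h2 =>
    obtain ⟨x, hx, rfl⟩ := h1
    obtain ⟨y, hy, rfl⟩ := h2
    rw [iterate_succ_apply']
    exact ⟨_, List.mem_flatMap.2 ⟨x, hx, List.mem_flatMap.2 ⟨y, hy, by simp⟩⟩, st_un x y⟩
  | sdiff k X Y _ _ h1 h2 =>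
    obtain ⟨x, hx, rfl⟩ := h1
    obtain ⟨y, hy, rfl⟩ := h2
    rw [iterate_succ_apply']
    exact ⟨_, List.mem_flatMap.2 ⟨x, hx, List.mem_flatMap.2 ⟨y, hy, by simp⟩⟩, st_df x y⟩

theorem ctx (R : List (List Bool)) (htr : ∀ a b c, rel N R a b → rel N R b c → rel N R a c)
    (hir : ∀ a, ¬ rel N R a a) : Ctx (rel N R) (fun z => lamL (List.range N) R z) (N * N + N)
      fun J => ∃ X ∈ base (List.range N) R, st N X = J := by
  have hl : ∀ z : Fin N, lamL (List.range N) R z =
      N * (univ.filter fun w => rel N R w z).card + z := fun z => by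
    rw [lamL, sum_ind, List.length_range]; rfl
  have hb : ∀ (z : Fin N) (f : ℕ → Bool), (List.range N).map f ∈
      [(List.range N).map fun w => eqn w z, (List.range N).map fun w => gm R w z,
        (List.range N).map fun w => gm R z w, (List.range N).map fun w =>
          nlt (lamL (List.range N) R w) (lamL (List.range N) R z)] →
      ∃ X ∈ base (List.range N) R, st N X = univ.filter fun i : Fin N => f i = true :=
    fun z f h => ⟨_, List.mem_cons_of_mem _ (List.mem_cons_of_mem _
      (List.mem_flatMap.2 ⟨z, List.mem_range.2 z.2, h⟩)), st_map f⟩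
  refine ⟨htr, fun a b h => ?_, fun a b h => ?_, fun a => ?_, ⟨_, List.mem_cons_self, ?_⟩,
    ⟨_, List.mem_cons_of_mem _ List.mem_cons_self, ?_⟩, fun z => ?_,
    fun z => hb z (fun w => gm R w z) (by simp), fun z => hb z (fun w => gm R z w) (by simp),
    fun z => ?_⟩
  · have h1 : (univ.filter fun w => rel N R w a).card + 1 ≤
        (univ.filter fun w => rel N R w b).card :=
      card_lt_card ⟨fun w hw => mem_filter.2 ⟨mem_univ _, htr _ _ _ (mem_filter.1 hw).2 h⟩,
        fun hh => hir a (mem_filter.1 (hh (mem_filter.2 ⟨mem_univ _, h⟩))).2⟩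
    have h2 := Nat.mul_le_mul_left N h1
    have := a.2
    rw [hl, hl]
    rw [mul_add] at h2
    omega
  · have h1 := congrArg (· % N) h
    simp only [hl, Nat.mul_add_mod, Nat.mod_eq_of_lt a.2, Nat.mod_eq_of_lt b.2] at h1
    exact Fin.ext h1
  · have h1 := Nat.mul_le_mul_left N (card_le_univ (univ.filter fun w => rel N R w a))
    have := a.2
    rw [Fintype.card_fin] at h1
    rw [hl]
    omega
  · rw [st_map]; simp
  · rw [st_map]; simp
  · obtain ⟨X, h1, h2⟩ := hb z (fun w => eqn w z) (by simp)
    refine ⟨X, h1, h2.trans ?_⟩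
    ext i
    simp [eqn_iff, Fin.ext_iff]
  · obtain ⟨X, h1, h2⟩ := hb z
      (fun w => nlt (lamL (List.range N) R w) (lamL (List.range N) R z)) (by simp)
    exact ⟨X, h1, h2.trans (by simp [nlt])⟩

/-- A table entry carries a perfect schedule of its set. -/
def Valid (m N : ℕ) (R : List (List Bool)) (e : Ent) : Prop :=
  Sched m (rel N R) (st N e.1) e.2.1 fun i => e.2.2.getD i 0

theorem dstep_valid {m : ℕ} {R F : List (List Bool)} {L : List Ent} (h : ∀ e ∈ L, Valid m N R e) :
    ∀ e ∈ dstep m (List.range N) R F L, Valid m N R e := by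
  intro e he
  rcases mem_dstep he with he | he
  · obtain ⟨X, -, h1, h2, rfl⟩ := mem_leaves.1 he
    rw [eqn_iff, cnt_eq] at h1
    rw [noArc_iff] at h2
    simp only [Valid, st_un, union_self, getD_range, ite_self]
    exact ⟨fun _ _ => Nat.one_pos, fun t ht => by
      rw [filter_true_of_mem fun _ _ => by omega, h1], fun u hu v hv h3 => absurd h3 (h2 u hu v hv)⟩
  · obtain ⟨x, hx, y, hy, h1, h2, rfl⟩ := mem_pairs.1 he
    have := (h x hx).glue (h y hy) ((disj_iff _ _).1 h1) ((noArc_iff _ _ _).1 h2)
    simp only [Valid, glueE, st_un]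
    refine this.congr fun z _ => ?_
    simp only [getD_range, z.2, if_true, mem_st, Bool.cond_eq_ite]

theorem foldl_const {β γ : Type} (f : β → β) (l : List γ) : ∀ x : β,
    l.foldl (fun L _ => f L) x = f^[l.length] x := by
  induction l with
  | nil => exact fun _ => rfl
  | cons a l ih => exact fun x => ih (f x)

theorem dp_valid (m : ℕ) (R F : List (List Bool)) :
    ∀ e ∈ dp m (List.range N) R F, Valid m N R e := by
  rw [dp, foldl_const]
  induction (List.range N).length with
  | zero => simp
  | succ k ih =>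
    rw [iterate_succ_apply']
    exact dstep_valid ih

theorem Good.card_pos {V : Type} [DecidableEq V] {m : ℕ} (hm : 1 ≤ m) {r : V → V → Prop}
    {F : Finset V → Prop} {J : Finset V} (h : Good m r F J) : 1 ≤ J.card := by
  induction h with
  | leaf J _ h _ => omega
  | cut J1 J2 _ _ _ _ _ h _ => exact h.trans (card_le_card subset_union_left)

theorem dp_complete {m : ℕ} (hm : 1 ≤ m) (R F : List (List Bool)) {Φ : Finset (Fin N) → Prop}
    (hΦ : ∀ J, Φ J → ∃ X ∈ F, st N X = J) (k : ℕ) : ∀ J, Good m (rel N R) Φ J → J.card ≤ k →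
      ∃ e ∈ (dstep m (List.range N) R F)^[k] [], st N e.1 = J := by
  induction k with
  | zero => exact fun J h hk => absurd (h.card_pos hm) (by omega)
  | succ k ih =>
    intro J h hk
    rw [iterate_succ_apply']
    generalize (dstep m (List.range N) R F)^[k] [] = L at ih
    have key : ∀ e ∈ leaves m (List.range N) R F ++ pairs (List.range N) R L, Φ (st N e.1) →
        ∃ e' ∈ dstep m (List.range N) R F L, st N e'.1 = st N e.1 := fun e he h1 => by
      obtain ⟨X, hX, h2⟩ := hΦ _ h1
      obtain ⟨e', h3⟩ := pick_ne he ((same_iff _ X).2 h2.symm)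
      exact ⟨e', List.mem_flatMap.2 ⟨X, hX, h3⟩, ((same_iff _ _).1 (mem_pick h3).2).trans h2⟩
    cases h with
    | leaf J h1 h2 h3 =>
      obtain ⟨X, hX, rfl⟩ := hΦ _ h1
      have := key _ (List.mem_append_left _ (mem_leaves.2 ⟨X, hX, by rw [eqn_iff, cnt_eq, h2],
        (noArc_iff _ _ _).2 h3, rfl⟩))
      simp only [st_un, union_self] at this
      exact this h1
    | cut J1 J2 g1 g2 h1 h2 h3 =>
      have c1 := g1.card_pos hm
      have c2 := g2.card_pos hm
      rw [card_union_of_disjoint h2] at hk
      obtain ⟨x, hx, rfl⟩ := ih J1 g1 (by omega)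
      obtain ⟨y, hy, rfl⟩ := ih J2 g2 (by omega)
      have := key _ (List.mem_append_right _ (mem_pairs.2 ⟨x, hx, y, hy, (disj_iff _ _).2 h2,
        (noArc_iff _ _ _).2 h3, rfl⟩))
      simp only [glueE, st_un] at this
      exact this h1

theorem fin_sound {m : ℕ} {R : List (List Bool)} {e : Ent} (h : e ∈ fin m (List.range N) R) :
    Sched m (rel N R) univ e.2.1 fun i => e.2.2.getD i 0 := by
  have h1 := dp_valid m R _ e (mem_pick h).1
  have h2 := (same_iff _ _).1 (mem_pick h).2
  rw [st_map] at h2
  simpa [Valid, h2] using h1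

theorem fin_complete {m : ℕ} (hm : 1 ≤ m) {R : List (List Bool)}
    (htr : ∀ a b c, rel N R a b → rel N R b c → rel N R a c) {T : ℕ} (hT : 1 ≤ T)
    {σ : Fin N → ℕ} (h : Sched m (rel N R) univ T σ) : ∃ e, e ∈ fin m (List.range N) R := by
  have g := good_univ (ctx R htr fun a ha =>
    lt_irrefl _ (h.ord a (mem_univ _) a (mem_univ _) ha)) hm hT h
  obtain ⟨e, he, h1⟩ := dp_complete hm R _ (fun J hJ => fam_complete _ hJ) N _ g (by simp)
  refine pick_ne (e := e) (by rwa [dp, foldl_const, List.length_range]) ?_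
  rw [same_iff, h1, st_map]
  simp

end Vale.Agent.P324
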