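import Mathlib

/-!
Staircases: unions of at most `m` nested down-sets cut by thresholds of a linear extension.
One can always remove a maximal job that precedes none of the fewer than `m` pinned jobs and stay
a staircase.
-/

namespace Vale.Agent.P324

open Finset

variable {V : Type} [Fintype V] [DecidableEq V]

/-- Sets obtained from basic sets by `k` rounds of unions and differences. -/
inductive Lvl (B : Finset V → Prop) : ℕ → Finset V → Prop
  | base (X : Finset V) : B X → Lvl B 0 X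
  | union (k : ℕ) (X Y : Finset V) : Lvl B k X → Lvl B k Y → Lvl B (k + 1) (X ∪ Y)
  | sdiff (k : ℕ) (X Y : Finset V) : Lvl B k X → Lvl B k Y → Lvl B (k + 1) (X \ Y)

variable {B : Finset V → Prop}

theorem Lvl.mono {k k' : ℕ} {X : Finset V} (h : Lvl B k X) (hk : k ≤ k') : Lvl B k' X := by
  induction hk with
  | refl => exact h
  | step _ ih => simpa using Lvl.union _ _ _ ih ih

theorem Lvl.inter {k : ℕ} {X Y : Finset V} (h : Lvl B k X) (h' : Lvl B k Y) :
    Lvl B (k + 2) (X ∩ Y) := by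
  simpa using Lvl.sdiff _ _ _ (h.mono (Nat.le_succ k)) (Lvl.sdiff _ _ _ h h')

theorem Lvl.biUnion {ι : Type} [DecidableEq ι] (h0 : B ∅) {a : ℕ} (f : ι → Finset V)
    (s : Finset ι) (h : ∀ i ∈ s, Lvl B a (f i)) : Lvl B (a + s.card) (s.biUnion f) := by
  induction s using Finset.induction_on with
  | empty => exact (Lvl.base _ h0).mono (Nat.zero_le _)
  | insert i s hi ih =>
    rw [biUnion_insert, card_insert_of_notMem hi]
    exact Lvl.union _ _ _ ((h i (mem_insert_self _ _)).mono (Nat.le_add_right _ _))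
      (ih fun j hj => h j (mem_insert_of_mem hj))

/-- The data: a transitive relation, a linear extension and the basic sets. -/
structure Ctx (r : V → V → Prop) [DecidableRel r] (lam : V → ℕ) (big : ℕ)
    (B : Finset V → Prop) : Prop where
  trans : ∀ a b c, r a b → r b c → r a c
  lt : ∀ a b, r a b → lam a < lam b
  inj : Function.Injective lam
  hbig : ∀ a, lam a < big
  empty : B ∅
  univ : B univ
  single : ∀ z, B {z}
  pred : ∀ z, B (Finset.univ.filter fun w => r w z)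
  succ : ∀ z, B (Finset.univ.filter fun w => r z w)
  low : ∀ z, B (Finset.univ.filter fun w => lam w < lam z)

variable {r : V → V → Prop} [DecidableRel r] {lam : V → ℕ} {big : ℕ}

/-- Strict predecessors and successors of a set. -/
def pre (r : V → V → Prop) [DecidableRel r] (Q : Finset V) : Finset V :=
  Q.biUnion fun q => univ.filter fun w => r w q

def suc (r : V → V → Prop) [DecidableRel r] (Q : Finset V) : Finset V :=
  Q.biUnion fun q => univ.filter fun w => r q w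

theorem mem_pre {Q : Finset V} {z : V} : z ∈ pre r Q ↔ ∃ q ∈ Q, r z q := by simp [pre]

theorem mem_suc {Q : Finset V} {z : V} : z ∈ suc r Q ↔ ∃ q ∈ Q, r q z := by simp [suc]

theorem Ctx.lvl_pre (C : Ctx r lam big B) {m : ℕ} {Q : Finset V} (h : Q.card ≤ m) :
    Lvl B m (pre r Q) :=
  (Lvl.biUnion C.empty _ Q fun q _ => Lvl.base _ (C.pred q)).mono (by omega)

theorem Ctx.lvl_suc (C : Ctx r lam big B) {m : ℕ} {Q : Finset V} (h : Q.card ≤ m) :
    Lvl B m (suc r Q) :=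
  (Lvl.biUnion C.empty _ Q fun q _ => Lvl.base _ (C.succ q)).mono (by omega)

theorem Ctx.lvl_small (C : Ctx r lam big B) {m : ℕ} {Q : Finset V} (h : Q.card ≤ m) :
    Lvl B m Q := by
  have := (Lvl.biUnion C.empty _ Q fun q _ => Lvl.base _ (C.single q)).mono
    (show 0 + Q.card ≤ m by omega)
  rwa [biUnion_singleton_eq_self] at this

/-- The set described by a family of pieces. -/
def sset (lam : V → ℕ) (S : Finset (Finset V × ℕ)) : Finset V :=
  S.biUnion fun w => w.1 ∩ univ.filter fun z => lam z < w.2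

theorem mem_sset {S : Finset (Finset V × ℕ)} {z : V} :
    z ∈ sset lam S ↔ ∃ w ∈ S, z ∈ w.1 ∧ lam z < w.2 := by simp [sset]

/-- A staircase with at most `m` pieces. -/
structure Stair (r : V → V → Prop) (lam : V → ℕ) (B : Finset V → Prop) (m : ℕ)
    (S : Finset (Finset V × ℕ)) : Prop where
  card : S.card ≤ m
  chain : ∀ w ∈ S, ∀ w' ∈ S, (w.1 ⊆ w'.1 ∧ w'.2 ≤ w.2) ∨ (w'.1 ⊆ w.1 ∧ w.2 ≤ w'.2)
  down : ∀ w ∈ S, ∀ z ∈ w.1, ∀ y, r y z → y ∈ w.1
  lvl : ∀ w ∈ S, Lvl B m w.1 ∧ B (univ.filter fun z => lam z < w.2)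

/-- The predecessors of every pinned job lie in one piece. -/
def Froz (r : V → V → Prop) (lam : V → ℕ) (S : Finset (Finset V × ℕ)) (P : Finset V) : Prop :=
  ∀ p ∈ P, ∃ w ∈ S, ∀ z, r z p → z ∈ w.1 ∧ lam z < w.2

theorem Stair.lvl_sset (C : Ctx r lam big B) {m : ℕ} {S : Finset (Finset V × ℕ)}
    (h : Stair r lam B m S) : Lvl B (2 * m + 2) (sset lam S) :=
  (Lvl.biUnion C.empty _ S fun w hw => (h.lvl w hw).1.inter
    ((Lvl.base _ (h.lvl w hw).2).mono (Nat.zero_le _))).mono (by have := h.card; omega)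

theorem Stair.sset_down (C : Ctx r lam big B) {m : ℕ} {S : Finset (Finset V × ℕ)}
    (h : Stair r lam B m S) {y z : V} (hz : z ∈ sset lam S) (hy : r y z) : y ∈ sset lam S := by
  obtain ⟨w, hw, h1, h2⟩ := mem_sset.1 hz
  exact mem_sset.2 ⟨w, hw, h.down w hw z h1 y hy, (C.lt _ _ hy).trans h2⟩

theorem Stair.erase {m : ℕ} {S : Finset (Finset V × ℕ)} (h : Stair r lam B m S)
    (u : Finset V × ℕ) : Stair r lam B m (S.erase u) :=
  ⟨card_erase_le.trans h.card,
    fun w hw w' hw' => h.chain w (mem_of_mem_erase hw) w' (mem_of_mem_erase hw'),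
    fun w hw => h.down w (mem_of_mem_erase hw), fun w hw => h.lvl w (mem_of_mem_erase hw)⟩

theorem restructure (C : Ctx r lam big B) {m : ℕ} {S : Finset (Finset V × ℕ)}
    (h : Stair r lam B m S) (hc : S.card < m) {P G : Finset V} (hP : P.card < m)
    (hF : Froz r lam S P) (hG : G ⊆ sset lam S) (hne : ∃ a ∈ G, ∀ p ∈ P, ¬ r a p) :
    ∃ j ∈ G, ∃ S', Stair r lam B m S' ∧ sset lam S' ⊆ sset lam S ∧ j ∉ sset lam S' ∧
      G.erase j ⊆ sset lam S' ∧ Froz r lam S' (insert j P) := by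
  obtain ⟨a, ha, hmax⟩ := exists_max_image (G.filter fun a => ∀ p ∈ P, ¬ r a p) lam
    (hne.imp fun a ha => mem_filter.2 ha)
  obtain ⟨haG, haP⟩ := mem_filter.1 ha
  obtain ⟨w0, hw0, ha1, ha2⟩ := mem_sset.1 (hG haG)
  obtain ⟨e, he, hemax⟩ := exists_max_image (S.filter fun w => lam a < w.2) (fun w => w.1.card)
    ⟨w0, mem_filter.2 ⟨hw0, ha2⟩⟩
  obtain ⟨heS, hea⟩ := mem_filter.1 he
  have hE : ∀ w ∈ S, lam a < w.2 → w.1 ⊆ e.1 := fun w hw h1 =>
    (h.chain w hw e heS).elim And.left fun h2 =>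
      (eq_of_subset_of_card_le h2.1 (hemax w (mem_filter.2 ⟨hw, h1⟩))).ge
  have hE' : ∀ w ∈ S, w.2 ≤ lam a → e.1 ⊆ w.1 := fun w hw h1 =>
    (h.chain w hw e heS).elim (fun h2 => absurd (h2.2.trans h1) (not_le.2 hea)) And.left
  set Ph := P.filter fun p => ∀ z, r z p → z ∈ e.1 with hPh
  have hpre : pre r Ph ⊆ e.1 := fun z hz => by
    obtain ⟨p, hp, h1⟩ := mem_pre.1 hz
    exact (mem_filter.1 hp).2 z h1
  set low := S.filter fun w => w.2 ≤ lam a with hlow
  have hmem : ∀ w, w ∈ insert (pre r Ph, big) (insert (e.1, lam a) low) ↔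
      w = (pre r Ph, big) ∨ w = (e.1, lam a) ∨ (w ∈ S ∧ w.2 ≤ lam a) := fun w => by
    simp [hlow]
  have hb := (C.hbig a).le
  have hfro : ∀ p ∈ P, ∃ w ∈ insert (pre r Ph, big) (insert (e.1, lam a) low),
      ∀ z, r z p → z ∈ w.1 ∧ lam z < w.2 := fun p hp => by
    obtain ⟨w, hw, h1⟩ := hF p hp
    by_cases h2 : w.2 ≤ lam a
    · exact ⟨w, (hmem w).2 (Or.inr (Or.inr ⟨hw, h2⟩)), h1⟩
    · exact ⟨_, (hmem _).2 (Or.inl rfl), fun z hz => ⟨mem_pre.2 ⟨p, mem_filter.2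
        ⟨hp, fun y hy => hE w hw (not_le.1 h2) (h1 y hy).1⟩, hz⟩, C.hbig z⟩⟩
  refine ⟨a, haG, insert (pre r Ph, big) (insert (e.1, lam a) low), ⟨?_, ?_, ?_, ?_⟩, ?_, ?_, ?_,
    ?_⟩
  · have h1 : low.card < S.card := card_lt_card ⟨filter_subset _ _, fun hh =>
      absurd (mem_filter.1 (hh hw0)).2 (not_le.2 ha2)⟩
    have h2 := card_insert_le (pre r Ph, big) (insert (e.1, lam a) low)
    have h3 := card_insert_le (e.1, lam a) low
    omega
  · intro w hw w' hw'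
    rcases (hmem w).1 hw with rfl | rfl | ⟨h1, h2⟩ <;>
      rcases (hmem w').1 hw' with rfl | rfl | ⟨h3, h4⟩
    · exact Or.inl ⟨Subset.rfl, le_rfl⟩
    · exact Or.inl ⟨hpre, hb⟩
    · exact Or.inl ⟨hpre.trans (hE' _ h3 h4), h4.trans hb⟩
    · exact Or.inr ⟨hpre, hb⟩
    · exact Or.inl ⟨Subset.rfl, le_rfl⟩
    · exact Or.inl ⟨hE' _ h3 h4, h4⟩
    · exact Or.inr ⟨hpre.trans (hE' _ h1 h2), h2.trans hb⟩
    · exact Or.inr ⟨hE' _ h1 h2, h2⟩
    · exact h.chain _ h1 _ h3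
  · intro w hw z hz y hy
    rcases (hmem w).1 hw with rfl | rfl | ⟨h1, -⟩
    · obtain ⟨p, hp, h2⟩ := mem_pre.1 hz
      exact mem_pre.2 ⟨p, hp, C.trans _ _ _ hy h2⟩
    · exact h.down e heS z hz y hy
    · exact h.down w h1 z hz y hy
  · intro w hw
    rcases (hmem w).1 hw with rfl | rfl | ⟨h1, -⟩
    · refine ⟨C.lvl_pre ((card_filter_le _ _).trans hP.le), ?_⟩
      rw [filter_true_of_mem fun z _ => C.hbig z]
      exact C.univ
    · exact ⟨(h.lvl e heS).1, C.low a⟩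
    · exact h.lvl w h1
  · intro z hz
    obtain ⟨w, hw, h1, h2⟩ := mem_sset.1 hz
    rcases (hmem w).1 hw with rfl | rfl | ⟨h3, -⟩
    · obtain ⟨p, hp, h4⟩ := mem_pre.1 h1
      obtain ⟨w, hw, h5⟩ := hF p (mem_filter.1 hp).1
      exact mem_sset.2 ⟨w, hw, h5 z h4⟩
    · exact mem_sset.2 ⟨e, heS, h1, h2.trans hea⟩
    · exact mem_sset.2 ⟨w, h3, h1, h2⟩
  · intro hz
    obtain ⟨w, hw, h1, h2⟩ := mem_sset.1 hz
    rcases (hmem w).1 hw with rfl | rfl | ⟨-, h3⟩
    · obtain ⟨p, hp, h4⟩ := mem_pre.1 h1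
      exact haP p (mem_filter.1 hp).1 h4
    · exact lt_irrefl _ h2
    · omega
  · intro z hz
    obtain ⟨hza, hzG⟩ := mem_erase.1 hz
    by_cases h1 : ∀ p ∈ P, ¬ r z p
    · have h2 : lam z < lam a :=
        lt_of_le_of_ne (hmax z (mem_filter.2 ⟨hzG, h1⟩)) fun h => hza (C.inj h)
      obtain ⟨w, hw, h3, h4⟩ := mem_sset.1 (hG hzG)
      by_cases h5 : w.2 ≤ lam a
      · exact mem_sset.2 ⟨w, (hmem w).2 (Or.inr (Or.inr ⟨hw, h5⟩)), h3, h4⟩
      · exact mem_sset.2 ⟨_, (hmem _).2 (Or.inr (Or.inl rfl)), hE w hw (not_le.1 h5) h3, h2⟩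
    · push Not at h1
      obtain ⟨p, hp, h2⟩ := h1
      obtain ⟨w, hw, h3⟩ := hfro p hp
      exact mem_sset.2 ⟨w, hw, h3 z h2⟩
  · intro p hp
    rcases mem_insert.1 hp with rfl | hp
    · exact ⟨_, (hmem _).2 (Or.inr (Or.inl rfl)), fun z hz =>
        ⟨h.down e heS p (hE w0 hw0 ha2 ha1) z hz, C.lt _ _ hz⟩⟩
    · exact hfro p hp

theorem stair_step (C : Ctx r lam big B) {m : ℕ} {S : Finset (Finset V × ℕ)}
    (h : Stair r lam B m S) {P G : Finset V} (hP : P.card < m)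
    (hF : Froz r lam S P) (hG : G ⊆ sset lam S) (hne : ∃ a ∈ G, ∀ p ∈ P, ¬ r a p) :
    ∃ j ∈ G, ∃ S', Stair r lam B m S' ∧ sset lam S' ⊆ sset lam S ∧ j ∉ sset lam S' ∧
      G.erase j ⊆ sset lam S' ∧ Froz r lam S' (insert j P) := by
  by_cases hc : S.card < m
  · exact restructure C h hc hP hF hG hne
  have hc' := h.card
  choose! f hf1 hf2 using hF
  obtain ⟨u, hu, hu'⟩ := exists_mem_notMem_of_card_lt_card
    (show (P.image f).card < S.card from card_image_le.trans_lt (by omega))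
  have hF' : Froz r lam (S.erase u) P := fun p hp =>
    ⟨f p, mem_erase.2 ⟨fun hh => hu' (hh ▸ mem_image_of_mem f hp), hf1 p hp⟩, hf2 p hp⟩
  have hce : (S.erase u).card < m := by rw [card_erase_of_mem hu]; omega
  have hsub : sset lam (S.erase u) ⊆ sset lam S := biUnion_subset_biUnion_of_subset_left _
    (erase_subset _ _)
  by_cases hG' : G ⊆ sset lam (S.erase u)
  · obtain ⟨j, hj, S', h1, h2, h3⟩ := restructure C (h.erase u) hce hP hF' hG' hne
    exact ⟨j, hj, S', h1, h2.trans hsub, h3⟩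
  obtain ⟨x, hx, hmax⟩ := exists_max_image (G \ sset lam (S.erase u)) lam
    (sdiff_nonempty.2 hG')
  have hin : ∀ z ∈ G \ sset lam (S.erase u), z ∈ u.1 ∧ lam z < u.2 := fun z hz => by
    obtain ⟨h1, h2⟩ := mem_sdiff.1 hz
    obtain ⟨w, hw, h3⟩ := mem_sset.1 (hG h1)
    by_cases h4 : w = u
    · exact h4 ▸ h3
    · exact absurd (mem_sset.2 ⟨w, mem_erase.2 ⟨h4, hw⟩, h3⟩) h2
  obtain ⟨hx1, hx2⟩ := hin x hx
  obtain ⟨hxG, hxS⟩ := mem_sdiff.1 hx
  have hch : ∀ w ∈ S.erase u, (w.1 ⊆ u.1 ∧ lam x ≤ w.2) ∨ (u.1 ⊆ w.1 ∧ w.2 ≤ lam x) :=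
    fun w hw => (h.chain w (mem_of_mem_erase hw) u hu).imp (fun h1 => ⟨h1.1, hx2.le.trans h1.2⟩)
      fun h1 => ⟨h1.1, not_lt.1 fun h2 => hxS (mem_sset.2 ⟨w, hw, h1.1 hx1, h2⟩)⟩
  refine ⟨x, hxG, insert (u.1, lam x) (S.erase u), ⟨?_, ?_, ?_, ?_⟩, ?_, ?_, ?_, ?_⟩
  · exact (card_insert_le _ _).trans hce
  · intro w hw w' hw'
    rcases mem_insert.1 hw with rfl | h1 <;> rcases mem_insert.1 hw' with rfl | h2
    · exact Or.inl ⟨Subset.rfl, le_rfl⟩
    · exact (hch _ h2).symm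
    · exact hch _ h1
    · exact (h.erase u).chain _ h1 _ h2
  · intro w hw
    rcases mem_insert.1 hw with rfl | h1
    · exact h.down u hu
    · exact (h.erase u).down w h1
  · intro w hw
    rcases mem_insert.1 hw with rfl | h1
    · exact ⟨(h.lvl u hu).1, C.low x⟩
    · exact (h.erase u).lvl w h1
  · intro z hz
    obtain ⟨w, hw, h1, h2⟩ := mem_sset.1 hz
    rcases mem_insert.1 hw with rfl | h3
    · exact mem_sset.2 ⟨u, hu, h1, h2.trans hx2⟩
    · exact mem_sset.2 ⟨w, mem_of_mem_erase h3, h1, h2⟩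
  · intro hz
    obtain ⟨w, hw, h1, h2⟩ := mem_sset.1 hz
    rcases mem_insert.1 hw with rfl | h3
    · exact lt_irrefl _ h2
    · exact hxS (mem_sset.2 ⟨w, h3, h1, h2⟩)
  · intro z hz
    obtain ⟨hzx, hzG⟩ := mem_erase.1 hz
    by_cases h1 : z ∈ sset lam (S.erase u)
    · exact biUnion_subset_biUnion_of_subset_left _ (subset_insert _ _) h1
    · have h2 := mem_sdiff.2 ⟨hzG, h1⟩
      exact mem_sset.2 ⟨_, mem_insert_self _ _, (hin z h2).1,
        lt_of_le_of_ne (hmax z h2) fun h => hzx (C.inj h)⟩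
  · intro p hp
    rcases mem_insert.1 hp with rfl | hp
    · exact ⟨_, mem_insert_self _ _, fun z hz => ⟨h.down u hu p hx1 z hz, C.lt _ _ hz⟩⟩
    · obtain ⟨w, hw, h1⟩ := hF' p hp
      exact ⟨w, mem_insert_of_mem hw, h1⟩

end Vale.Agent.P324
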